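import Mathlib

/-!
# P302: a verified infeasibility checker for bin packing in integer form

Items are natural numbers, the bin capacity is `G`.  A state is a list of pairs
`(size, multiplicity)`.
-/

namespace Vale.Agent.Lib.P302

/-- The multiset of items described by a state. -/
def stMs (st : List (ℕ × ℕ)) : Multiset ℕ :=
  (st.map fun p => Multiset.replicate p.2 p.1).sum

/-- `CanPack G k M`: the multiset `M` splits into `k` bins of total size at most `G` each. -/
def CanPack (G k : ℕ) (M : Multiset ℕ) : Prop :=
  ∃ bins : List (Multiset ℕ), bins.length = k ∧ bins.sum = M ∧ ∀ B ∈ bins, B.sum ≤ G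

/-- All vectors of counts (aligned with the state) that fit into capacity `cap`. -/
def subs : List (ℕ × ℕ) → ℕ → List (List ℕ)
  | [], _ => [[]]
  | p :: st, cap =>
      (List.range (p.2 + 1)).flatMap fun c =>
        if c * p.1 ≤ cap then (subs st (cap - c * p.1)).map (fun cs => c :: cs) else []

/-- Remove the counts `cs` from the state. -/
def residual : List (ℕ × ℕ) → List ℕ → List (ℕ × ℕ)
  | p :: st, c :: cs => (p.1, p.2 - c) :: residual st cs
  | st, _ => st

/-- Total size of a state. -/
def vol (st : List (ℕ × ℕ)) : ℕ := (st.map fun p => p.2 * p.1).sum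

/-- Drop leading entries of multiplicity zero. -/
def normSt : List (ℕ × ℕ) → List (ℕ × ℕ)
  | [] => []
  | p :: st => if p.2 = 0 then normSt st else p :: st

/-- `noPack G k st = true` certifies that the items of `st` do not fit into `k` bins. -/
def noPack (G : ℕ) : ℕ → List (ℕ × ℕ) → Bool
  | 0, st => match normSt st with
    | [] => false
    | _ :: _ => true
  | k + 1, st => match normSt st with
    | [] => false
    | p :: rest =>
      if (k + 1) * G < vol (p :: rest) then true
      else if G < p.1 then true
      else (subs ((p.1, p.2 - 1) :: rest) (G - p.1)).all fun cs =>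
        noPack G k (residual ((p.1, p.2 - 1) :: rest) cs)

theorem stMs_cons (p : ℕ × ℕ) (st : List (ℕ × ℕ)) :
    stMs (p :: st) = Multiset.replicate p.2 p.1 + stMs st := by
  simp [stMs]

theorem stMs_normSt (st : List (ℕ × ℕ)) : stMs (normSt st) = stMs st := by
  induction st with
  | nil => rfl
  | cons p st ih =>
    unfold normSt
    split_ifs with h
    · rw [ih, stMs_cons, h]; simp
    · rfl

theorem normSt_head (st : List (ℕ × ℕ)) (p : ℕ × ℕ) (rest : List (ℕ × ℕ))
    (h : normSt st = p :: rest) : p.2 ≠ 0 := by
  induction st with
  | nil => simp [normSt] at h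
  | cons q st ih =>
    unfold normSt at h
    split_ifs at h with hq
    · exact ih h
    · simp only [List.cons.injEq] at h
      rw [← h.1]; exact hq

theorem vol_eq (st : List (ℕ × ℕ)) : vol st = (stMs st).sum := by
  induction st with
  | nil => simp [vol, stMs]
  | cons p st ih =>
    rw [stMs_cons, Multiset.sum_add, ← ih]
    simp [vol]

theorem CanPack.sum_le {G k : ℕ} {M : Multiset ℕ} (h : CanPack G k M) : M.sum ≤ k * G := by
  obtain ⟨bins, hlen, hsum, hle⟩ := h
  subst hlen hsum
  induction bins with
  | nil => simp
  | cons B bins ih =>
    have h1 : B.sum ≤ G := hle B (by simp)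
    have h2 := ih (fun B' hB' => hle B' (by simp [hB']))
    simp only [List.sum_cons, Multiset.sum_add, List.length_cons]
    nlinarith

theorem CanPack.zero {G : ℕ} {M : Multiset ℕ} (h : CanPack G 0 M) : M = 0 := by
  obtain ⟨bins, hlen, hsum, -⟩ := h
  rw [List.length_eq_zero_iff] at hlen
  subst hlen
  simpa using hsum.symm

/-- Take out the bin containing a given item. -/
theorem CanPack.split {G k : ℕ} {M : Multiset ℕ} (h : CanPack G (k + 1) M) {x : ℕ}
    (hx : x ∈ M) : ∃ B : Multiset ℕ, x ∈ B ∧ B ≤ M ∧ B.sum ≤ G ∧ CanPack G k (M - B) := by
  obtain ⟨bins, hlen, hsum, hle⟩ := h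
  subst hsum
  have : ∃ B ∈ bins, x ∈ B := by
    clear hlen hle
    induction bins with
    | nil => simp at hx
    | cons B bins ih =>
      rw [List.sum_cons, Multiset.mem_add] at hx
      rcases hx with hx | hx
      · exact ⟨B, by simp, hx⟩
      · obtain ⟨B', hB', hxB'⟩ := ih hx
        exact ⟨B', by simp [hB'], hxB'⟩
  obtain ⟨B, hB, hxB⟩ := this
  have hperm : bins.Perm (B :: bins.erase B) := List.perm_cons_erase hB
  have hsum2 : bins.sum = B + (bins.erase B).sum := by
    rw [hperm.sum_eq, List.sum_cons]
  refine ⟨B, hxB, ?_, hle B hB, (bins.erase B), ?_, ?_, ?_⟩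
  · rw [hsum2]; exact Multiset.le_add_right _ _
  · rw [List.length_erase_of_mem hB, hlen]; rfl
  · rw [hsum2]; simp
  · intro B' hB'
    exact hle B' (List.mem_of_mem_erase hB')

theorem subs_complete (st : List (ℕ × ℕ)) (cap : ℕ) (B : Multiset ℕ) (hB : B ≤ stMs st)
    (hcap : B.sum ≤ cap) :
    ∃ cs ∈ subs st cap, stMs (residual st cs) = stMs st - B := by
  induction st generalizing cap B with
  | nil =>
    refine ⟨[], by simp [subs], ?_⟩
    have : B = 0 := by simpa [stMs] using hB
    simp [residual, this]
  | cons p st ih =>
    obtain ⟨s, m⟩ := p
    rw [stMs_cons] at hB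
    simp only at hB
    set c := min m (B.count s) with hc
    set B2 := B - Multiset.replicate c s with hB2
    have hrep : Multiset.replicate c s ≤ B := by
      rw [Multiset.le_iff_count]
      intro t
      rw [Multiset.count_replicate]
      split_ifs with h
      · subst h; exact min_le_right _ _
      · exact Nat.zero_le _
    have hBeq : B = Multiset.replicate c s + B2 := by
      rw [hB2, add_tsub_cancel_of_le hrep]
    have hB2le : B2 ≤ stMs st := by
      rw [Multiset.le_iff_count]
      intro t
      have h1 := Multiset.le_iff_count.mp hB t
      rw [hB2, Multiset.count_sub, Multiset.count_replicate]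
      rw [Multiset.count_add, Multiset.count_replicate] at h1
      split_ifs with h
      · subst h
        simp only [if_true] at h1
        omega
      · simp only [if_neg h, zero_add] at h1
        simpa using h1
    have hsumB : B.sum = c * s + B2.sum := by
      conv_lhs => rw [hBeq]
      rw [Multiset.sum_add, Multiset.sum_replicate, smul_eq_mul]
    have hcs : c * s ≤ cap := by omega
    obtain ⟨cs, hcs_mem, hres⟩ := ih (cap - c * s) B2 hB2le (by omega)
    refine ⟨c :: cs, ?_, ?_⟩
    · simp only [subs, List.mem_flatMap, List.mem_range]
      refine ⟨c, ?_, ?_⟩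
      · have : c ≤ m := min_le_left _ _
        omega
      · rw [if_pos hcs]
        exact List.mem_map_of_mem hcs_mem
    · simp only [residual, stMs_cons]
      rw [hres]
      have hcm : c ≤ m := min_le_left _ _
      ext t
      simp only [Multiset.count_add, Multiset.count_sub, Multiset.count_replicate]
      have h1 := Multiset.le_iff_count.mp hB2le t
      have h2 : Multiset.count t B = Multiset.count t (Multiset.replicate c s) + Multiset.count t B2 := by
        conv_lhs => rw [hBeq]
        rw [Multiset.count_add]
      rw [Multiset.count_replicate] at h2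
      split_ifs at h2 ⊢ with h <;> omega

/-- Soundness of the checker. -/
theorem noPack_sound (G : ℕ) : ∀ (k : ℕ) (st : List (ℕ × ℕ)),
    noPack G k st = true → ¬ CanPack G k (stMs st) := by
  intro k
  induction k with
  | zero =>
    intro st h hcan
    have hM := hcan.zero
    unfold noPack at h
    rcases hn : normSt st with _ | ⟨p, rest⟩
    · rw [hn] at h; simp at h
    · have hp := normSt_head st p rest hn
      have : stMs (normSt st) = 0 := by rw [stMs_normSt]; exact hM
      rw [hn, stMs_cons] at this
      have h3 : Multiset.replicate p.2 p.1 = 0 := by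
        have := congrArg Multiset.card this
        simp only [Multiset.card_add, Multiset.card_replicate, Multiset.card_zero] at this
        omega
      have := congrArg Multiset.card h3
      simp at this
      exact hp this
  | succ k ih =>
    intro st h hcan
    unfold noPack at h
    rcases hn : normSt st with _ | ⟨p, rest⟩
    · rw [hn] at h; simp at h
    · rw [hn] at h
      simp only at h
      have hp := normSt_head st p rest hn
      have hM : stMs st = stMs (p :: rest) := by rw [← hn, stMs_normSt]
      rw [hM] at hcan
      split_ifs at h with h1 h2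
      · have := hcan.sum_le
        rw [← vol_eq] at this
        omega
      · have hmem : p.1 ∈ stMs (p :: rest) := by
          rw [stMs_cons, Multiset.mem_add]
          left
          rw [Multiset.mem_replicate]
          exact ⟨hp, rfl⟩
        obtain ⟨B, hxB, -, hBsum, -⟩ := hcan.split hmem
        have : p.1 ≤ B.sum := Multiset.single_le_sum (by simp) _ hxB
        omega
      · have hmem : p.1 ∈ stMs (p :: rest) := by
          rw [stMs_cons, Multiset.mem_add]
          left
          rw [Multiset.mem_replicate]
          exact ⟨hp, rfl⟩
        obtain ⟨B, hxB, hBle, hBsum, hrest⟩ := hcan.split hmem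
        obtain ⟨B', rfl⟩ := Multiset.exists_cons_of_mem hxB
        have hsplit : stMs (p :: rest) = p.1 ::ₘ stMs ((p.1, p.2 - 1) :: rest) := by
          rw [stMs_cons, stMs_cons]
          simp only
          obtain ⟨m, hm⟩ := Nat.exists_eq_succ_of_ne_zero hp
          rw [hm, Multiset.replicate_succ]
          simp
        have hB'le : B' ≤ stMs ((p.1, p.2 - 1) :: rest) := by
          rw [hsplit] at hBle
          exact (Multiset.cons_le_cons_iff _).mp hBle
        have hB'sum : B'.sum ≤ G - p.1 := by
          rw [Multiset.sum_cons] at hBsum
          omega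
        obtain ⟨cs, hcs, hres⟩ := subs_complete _ _ B' hB'le hB'sum
        rw [List.all_eq_true] at h
        have h3 := h cs hcs
        apply ih _ h3
        rw [hres]
        have : stMs (p :: rest) - p.1 ::ₘ B' = stMs ((p.1, p.2 - 1) :: rest) - B' := by
          rw [hsplit]
          simp
        rw [← this]
        exact hrest

end Vale.Agent.Lib.P302
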