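import Vale.Agent.Lib.P302.CutCert

/-!
# P302: a core of 38 items that does not fit into 13 bins together with a filler of size 997

Capacity 7500.  The proof is a cutting-plane certificate with 5 derivation steps, checked
over the 5064 feasible bins.
-/

namespace Vale.Agent.Lib.P302.Core38
open Vale.Agent.Lib.P302

/-- The capacity. -/
def cap : ℕ := 7500
/-- The core item sizes, in decreasing order. -/
def core : List ℕ := [3490, 3401, 3397, 3389, 3375, 3277, 3273, 3265, 3251, 3029, 3025, 3017, 2503, 2500, 2498, 2243, 2243, 2241, 2239, 2237, 2235, 2231, 2119, 2119, 2117, 2115, 2113, 2111, 2107, 2057, 2057, 2055, 2053, 2051, 2049, 2045, 2006, 2005]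
/-- The distinct sizes of the core and the filler, in decreasing order. -/
def sizes : List ℕ := [3490, 3401, 3397, 3389, 3375, 3277, 3273, 3265, 3251, 3029, 3025, 3017, 2503, 2500, 2498, 2243, 2241, 2239, 2237, 2235, 2231, 2119, 2117, 2115, 2113, 2111, 2107, 2057, 2055, 2053, 2051, 2049, 2045, 2006, 2005, 997]
/-- The derivation steps, most recent first. -/
def cuts : List Cut :=
  [ { U := [0, 2, 2, 2, 2, 2, 2, 2, 2, 2, 2, 2, 4, 4, 4, 5, 5, 5, 5, 5, 5, 5, 5, 5, 5, 5, 5, 5, 5, 5, 5, 5, 5, 5, 5, 9], N := 20, Mu := [1], D := 11 },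
    { U := [0, 0, 0, 0, 1, 2, 2, 2, 3, 5, 5, 5, 0, 0, 0, 0, 0, 0, 0, 0, 0, 2, 2, 2, 2, 2, 2, 3, 3, 3, 3, 3, 3, 4, 4], N := 0, Mu := [2, 1, 1], D := 7 },
    { U := [0, 0, 0, 0, 0, 0, 0, 0, 0, 0, 1, 2, 0, 0, 0, 0, 0, 1, 1, 1, 2], N := 0, Mu := [], D := 3 },
    { U := [0, 0, 0, 0, 0, 0, 1, 2, 0, 0, 0, 0, 0, 0, 0, 0, 0, 0, 0, 0, 0, 0, 0, 1, 1, 1, 2], N := 0, Mu := [], D := 3 },
    { U := [0, 0, 1, 2, 0, 0, 0, 0, 0, 0, 0, 0, 0, 0, 0, 0, 0, 0, 0, 0, 0, 0, 0, 0, 0, 0, 0, 0, 0, 1, 1, 1, 2], N := 0, Mu := [], D := 3 } ]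

theorem sens : ¬ CanPack cap 13 (997 ::ₘ (core : Multiset ℕ)) :=
  not_canPack_of_cuts cap 13 (997 :: core) sizes cuts (by decide +kernel)

end Vale.Agent.Lib.P302.Core38
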