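import Vale.Agent.Lib.P302.CutFast

/-!
# P302: a core of 59 items that does not fit into 20 bins together with a filler of size 5422

Capacity 39798.  The proof is a cutting-plane certificate with 7 derivation steps, checked
over the 14296 feasible bins.
-/

namespace Vale.Agent.Lib.P302.Core59
open Vale.Agent.Lib.P302

/-- The capacity. -/
def cap : ℕ := 39798
/-- The core item sizes, in decreasing order. -/
def core : List ℕ := [18061, 18058, 18050, 18030, 18028, 18022, 17974, 17972, 17966, 17862, 17860, 17854, 17638, 17636, 17630, 17190, 17188, 14474, 14472, 14468, 12666, 12665, 12664, 12663, 12662, 12660, 11307, 11307, 11305, 11304, 11303, 11083, 11083, 11081, 11080, 11079, 10971, 10971, 10969, 10968, 10967, 10915, 10915, 10913, 10912, 10911, 10887, 10887, 10885, 10884, 10883, 10874, 10873, 10870, 10868, 10866, 10860, 10860, 10860]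
/-- The item types of the core and the filler with their multipliers. -/
def tys : List Ty :=
  [ { s := 18061, m := 1, w := [] },
    { s := 18058, m := 1, w := [] },
    { s := 18050, m := 1, w := [] },
    { s := 18030, m := 1, w := [] },
    { s := 18028, m := 1, w := [] },
    { s := 18022, m := 1, w := [] },
    { s := 17974, m := 1, w := [0, 1] },
    { s := 17972, m := 1, w := [0, 1, 0, 0, 0, 0, 1] },
    { s := 17966, m := 1, w := [0, 2] },
    { s := 17862, m := 1, w := [0, 4] },
    { s := 17860, m := 1, w := [0, 4, 0, 0, 0, 1] },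
    { s := 17854, m := 1, w := [0, 6] },
    { s := 17638, m := 1, w := [0, 10] },
    { s := 17636, m := 1, w := [0, 10, 0, 0, 1] },
    { s := 17630, m := 1, w := [0, 14] },
    { s := 17190, m := 1, w := [0, 22] },
    { s := 17188, m := 1, w := [0, 22, 0, 1] },
    { s := 14474, m := 1, w := [3] },
    { s := 14472, m := 1, w := [3, 0, 1] },
    { s := 14468, m := 1, w := [3, 0, 2] },
    { s := 12666, m := 1, w := [4] },
    { s := 12665, m := 1, w := [4] },
    { s := 12664, m := 1, w := [4, 0, 1] },
    { s := 12663, m := 1, w := [4, 0, 1] },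
    { s := 12662, m := 1, w := [4, 0, 1] },
    { s := 12660, m := 1, w := [4, 0, 2] },
    { s := 11307, m := 2, w := [5] },
    { s := 11305, m := 1, w := [5, 0, 0, 1] },
    { s := 11304, m := 1, w := [5, 0, 0, 1] },
    { s := 11303, m := 1, w := [5, 0, 0, 2] },
    { s := 11083, m := 2, w := [5, 8] },
    { s := 11081, m := 1, w := [5, 8, 0, 0, 1] },
    { s := 11080, m := 1, w := [5, 8, 0, 0, 1] },
    { s := 11079, m := 1, w := [5, 8, 0, 0, 2] },
    { s := 10971, m := 2, w := [5, 12] },
    { s := 10969, m := 1, w := [5, 12, 0, 0, 0, 1] },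
    { s := 10968, m := 1, w := [5, 12, 0, 0, 0, 1] },
    { s := 10967, m := 1, w := [5, 12, 0, 0, 0, 2] },
    { s := 10915, m := 2, w := [5, 14] },
    { s := 10913, m := 1, w := [5, 14, 0, 0, 0, 0, 1] },
    { s := 10912, m := 1, w := [5, 14, 0, 0, 0, 0, 1] },
    { s := 10911, m := 1, w := [5, 14, 0, 0, 0, 0, 2] },
    { s := 10887, m := 2, w := [5, 15] },
    { s := 10885, m := 1, w := [5, 15] },
    { s := 10884, m := 1, w := [5, 15] },
    { s := 10883, m := 1, w := [5, 15] },
    { s := 10874, m := 1, w := [5, 15] },
    { s := 10873, m := 1, w := [5, 15] },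
    { s := 10870, m := 1, w := [5, 15] },
    { s := 10868, m := 1, w := [5, 15] },
    { s := 10866, m := 1, w := [5, 15] },
    { s := 10860, m := 3, w := [5, 16] },
    { s := 5422, m := 1, w := [9] } ]
/-- The derivation steps, most recent first. -/
def steps : List Step :=
  [ { N := 24, Mu := [2, 1], D := 12 },
    { N := 0, Mu := [0, 8, 4, 2, 1], D := 30 },
    { N := 0, Mu := [], D := 3 },
    { N := 0, Mu := [], D := 3 },
    { N := 0, Mu := [], D := 3 },
    { N := 0, Mu := [], D := 3 },
    { N := 0, Mu := [], D := 3 } ]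

theorem sens : ¬ CanPack cap 20 (5422 ::ₘ (core : Multiset ℕ)) :=
  not_canPack_of_fast cap 20 (5422 :: core) tys steps (by decide +kernel)

end Vale.Agent.Lib.P302.Core59
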