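import Vale.Agent.Lib.P302.CutQuick

/-!
# P302: a core of 80 items that does not fit into 27 bins together with a filler of size 59213

Capacity 434254.  The proof is a cutting-plane certificate with 9 derivation steps, checked
over the 44243 feasible bins.
-/

namespace Vale.Agent.Lib.P302.CoreJ6
open Vale.Agent.Lib.P302

/-- The capacity. -/
def cap : ℕ := 434254
/-- The core item sizes, in decreasing order. -/
def core : List ℕ := [197376, 197152, 197142, 197122, 197087, 196842, 196832, 196812, 196777, 196222, 196212, 196192, 196157, 194982, 194972, 194952, 194917, 192502, 192492, 192472, 192437, 187542, 187532, 187512, 157912, 157910, 157906, 138175, 138174, 138173, 138172, 138171, 138169, 123374, 123374, 123369, 123364, 123359, 123354, 123344, 120894, 120894, 120889, 120884, 120879, 120874, 120864, 119654, 119654, 119649, 119644, 119639, 119634, 119624, 119034, 119034, 119029, 119024, 119019, 119014, 119004, 118724, 118724, 118719, 118714, 118709, 118704, 118694, 118569, 118569, 118564, 118559, 118554, 118549, 118539, 118443, 118442,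 118441, 118440, 118439]
/-- The item types of the core and the filler with their multipliers. -/
def tys : List Ty :=
  [ { s := 197376, m := 1, w := [] },
    { s := 197152, m := 1, w := [] },
    { s := 197142, m := 1, w := [0, 0, 0, 0, 0, 0, 0, 0, 1] },
    { s := 197122, m := 1, w := [0, 0, 0, 0, 0, 0, 0, 0, 2] },
    { s := 197087, m := 1, w := [0, 1] },
    { s := 196842, m := 1, w := [0, 2] },
    { s := 196832, m := 1, w := [0, 2, 0, 0, 0, 0, 0, 1] },
    { s := 196812, m := 1, w := [0, 2, 0, 0, 0, 0, 0, 2] },
    { s := 196777, m := 1, w := [0, 3] },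
    { s := 196222, m := 1, w := [0, 5] },
    { s := 196212, m := 1, w := [0, 5, 0, 0, 0, 0, 1] },
    { s := 196192, m := 1, w := [0, 5, 0, 0, 0, 0, 2] },
    { s := 196157, m := 1, w := [0, 7] },
    { s := 194982, m := 1, w := [0, 11] },
    { s := 194972, m := 1, w := [0, 11, 0, 0, 0, 1] },
    { s := 194952, m := 1, w := [0, 11, 0, 0, 0, 2] },
    { s := 194917, m := 1, w := [0, 15] },
    { s := 192502, m := 1, w := [0, 23] },
    { s := 192492, m := 1, w := [0, 23, 0, 0, 1] },
    { s := 192472, m := 1, w := [0, 23, 0, 0, 2] },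
    { s := 192437, m := 1, w := [0, 31] },
    { s := 187542, m := 1, w := [0, 47] },
    { s := 187532, m := 1, w := [0, 47, 0, 1] },
    { s := 187512, m := 1, w := [0, 47, 0, 2] },
    { s := 157912, m := 1, w := [3] },
    { s := 157910, m := 1, w := [3, 0, 1] },
    { s := 157906, m := 1, w := [3, 0, 2] },
    { s := 138175, m := 1, w := [4] },
    { s := 138174, m := 1, w := [4] },
    { s := 138173, m := 1, w := [4, 0, 1] },
    { s := 138172, m := 1, w := [4, 0, 1] },
    { s := 138171, m := 1, w := [4, 0, 1] },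
    { s := 138169, m := 1, w := [4, 0, 2] },
    { s := 123374, m := 2, w := [5] },
    { s := 123369, m := 1, w := [5] },
    { s := 123364, m := 1, w := [5, 0, 0, 1] },
    { s := 123359, m := 1, w := [5, 0, 0, 1] },
    { s := 123354, m := 1, w := [5, 0, 0, 1] },
    { s := 123344, m := 1, w := [5, 0, 0, 2] },
    { s := 120894, m := 2, w := [5, 16] },
    { s := 120889, m := 1, w := [5, 16] },
    { s := 120884, m := 1, w := [5, 16, 0, 0, 1] },
    { s := 120879, m := 1, w := [5, 16, 0, 0, 1] },
    { s := 120874, m := 1, w := [5, 16, 0, 0, 1] },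
    { s := 120864, m := 1, w := [5, 16, 0, 0, 2] },
    { s := 119654, m := 2, w := [5, 24] },
    { s := 119649, m := 1, w := [5, 24] },
    { s := 119644, m := 1, w := [5, 24, 0, 0, 0, 1] },
    { s := 119639, m := 1, w := [5, 24, 0, 0, 0, 1] },
    { s := 119634, m := 1, w := [5, 24, 0, 0, 0, 1] },
    { s := 119624, m := 1, w := [5, 24, 0, 0, 0, 2] },
    { s := 119034, m := 2, w := [5, 28] },
    { s := 119029, m := 1, w := [5, 28] },
    { s := 119024, m := 1, w := [5, 28, 0, 0, 0, 0, 1] },
    { s := 119019, m := 1, w := [5, 28, 0, 0, 0, 0, 1] },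
    { s := 119014, m := 1, w := [5, 28, 0, 0, 0, 0, 1] },
    { s := 119004, m := 1, w := [5, 28, 0, 0, 0, 0, 2] },
    { s := 118724, m := 2, w := [5, 30] },
    { s := 118719, m := 1, w := [5, 30] },
    { s := 118714, m := 1, w := [5, 30, 0, 0, 0, 0, 0, 1] },
    { s := 118709, m := 1, w := [5, 30, 0, 0, 0, 0, 0, 1] },
    { s := 118704, m := 1, w := [5, 30, 0, 0, 0, 0, 0, 1] },
    { s := 118694, m := 1, w := [5, 30, 0, 0, 0, 0, 0, 2] },
    { s := 118569, m := 2, w := [5, 31] },
    { s := 118564, m := 1, w := [5, 31] },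
    { s := 118559, m := 1, w := [5, 31, 0, 0, 0, 0, 0, 0, 1] },
    { s := 118554, m := 1, w := [5, 31, 0, 0, 0, 0, 0, 0, 1] },
    { s := 118549, m := 1, w := [5, 31, 0, 0, 0, 0, 0, 0, 1] },
    { s := 118539, m := 1, w := [5, 31, 0, 0, 0, 0, 0, 0, 2] },
    { s := 118443, m := 1, w := [5, 32] },
    { s := 118442, m := 1, w := [5, 32] },
    { s := 118441, m := 1, w := [5, 32] },
    { s := 118440, m := 1, w := [5, 32] },
    { s := 118439, m := 1, w := [5, 32] },
    { s := 59213, m := 1, w := [9] } ]
/-- The derivation steps, most recent first. -/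
def steps : List Step :=
  [ { N := 24, Mu := [2, 1], D := 12 },
    { N := 0, Mu := [0, 16, 8, 4, 2, 1, 1], D := 63 },
    { N := 0, Mu := [], D := 3 },
    { N := 0, Mu := [], D := 3 },
    { N := 0, Mu := [], D := 3 },
    { N := 0, Mu := [], D := 3 },
    { N := 0, Mu := [], D := 3 },
    { N := 0, Mu := [], D := 3 },
    { N := 0, Mu := [], D := 3 } ]

theorem sens : ¬ CanPack cap 27 (59213 ::ₘ (core : Multiset ℕ)) :=
  not_canPack_of_quick cap 27 (59213 :: core) tys steps (by decide +kernel)

end Vale.Agent.Lib.P302.CoreJ6
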