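import Vale.Agent.Lib.P302.Checker

/-!
# P302: cutting-plane certificates for bin packing infeasibility

A packing of the item list `L` into `k` bins is a list of `k` sub-multisets of `L` (the bins),
each of total size at most `G`.  Every bin is described by its vector of counts over a list `S`
of the distinct sizes.  Starting from the relations that every size is used as often as it occurs
and that there are `k` bins, one derives inequalities of the form
`∑ over the bins of c(bin) ≤ β` by taking nonnegative integer combinations, dividing by a
positive integer and rounding down on both sides (the coefficient of every bin is rounded down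
separately, which is sound because the bins are counted by natural numbers).  A final derived
inequality whose coefficient on every feasible bin is at least the number of items of the bin,
with bound smaller than the number of items, shows that no packing exists.
-/

namespace Vale.Agent.Lib.P302

/-- One derivation step: multipliers `U` for the sizes (aligned with the list of sizes), a
multiplier `N` for the number of bins, multipliers `Mu` for the earlier steps (most recent
first) and the divisor `D`. -/
structure Cut where
  /-- multipliers of the sizes -/
  U : List ℕ
  /-- multiplier of the number of bins -/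
  N : ℕ
  /-- multipliers of the earlier steps, most recent first -/
  Mu : List ℕ
  /-- the divisor -/
  D : ℕ

/-- Dot product of two lists (the longer one is cut off). -/
def dot : List ℕ → List ℕ → ℕ
  | a :: as, b :: bs => a * b + dot as bs
  | _, _ => 0

/-- The coefficients of all steps (most recent first) on a bin with count vector `cs`. -/
def coefs (cs : List ℕ) : List Cut → List ℕ
  | [] => []
  | c :: rest => ((dot c.U cs + c.N + dot c.Mu (coefs cs rest)) / c.D) :: coefs cs rest

/-- The bounds of all steps (most recent first); `m` is the vector of multiplicities. -/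
def betas (m : List ℕ) (k : ℕ) : List Cut → List ℕ
  | [] => []
  | c :: rest => ((dot c.U m + c.N * k + dot c.Mu (betas m k rest)) / c.D) :: betas m k rest

/-- The count vector of a bin over the list of sizes `S`. -/
def cvec (S : List ℕ) (B : Multiset ℕ) : List ℕ := S.map fun s => B.count s

/-- The certificate check: `S` lists the distinct sizes of `L`; the most recent step has, on
every feasible bin, a coefficient at least the number of items of the bin, and its bound is
smaller than the number of items. -/
def cgCheck (G k : ℕ) (L S : List ℕ) (cuts : List Cut) : Bool :=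
  decide S.Nodup && L.all (fun a => decide (a ∈ S)) &&
  (subs (S.map fun s => (s, L.count s)) G).all
    (fun cs => decide (cs.sum ≤ (coefs cs cuts).headD 0)) &&
  decide ((betas (S.map fun s => L.count s) k cuts).headD 0 < (S.map fun s => L.count s).sum)

theorem dot_nil_right (a : List ℕ) : dot a [] = 0 := by
  cases a <;> rfl

theorem dot_cvec_add (S : List ℕ) : ∀ (U : List ℕ) (B1 B2 : Multiset ℕ),
    dot U (cvec S (B1 + B2)) = dot U (cvec S B1) + dot U (cvec S B2) := by
  induction S with
  | nil => intro U B1 B2; simp [cvec, dot_nil_right]
  | cons s S ih =>
    intro U B1 B2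
    cases U with
    | nil => simp [dot]
    | cons u U =>
      have h := ih U B1 B2
      simp only [cvec, List.map_cons, dot, Multiset.count_add] at h ⊢
      rw [h]; ring

theorem dot_cvec_zero (S : List ℕ) : ∀ (U : List ℕ), dot U (cvec S 0) = 0 := by
  induction S with
  | nil => intro U; simp [cvec, dot_nil_right]
  | cons s S ih =>
    intro U
    cases U with
    | nil => simp [dot]
    | cons u U =>
      have h := ih U
      simp only [cvec, List.map_cons, dot, Multiset.count_zero] at h ⊢
      rw [h]; simp

theorem dot_cvec_sum (S U : List ℕ) (bins : List (Multiset ℕ)) :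
    (bins.map fun B => dot U (cvec S B)).sum = dot U (cvec S bins.sum) := by
  induction bins with
  | nil => simp [dot_cvec_zero]
  | cons B bins ih => simp [dot_cvec_add, ih]

theorem cvec_sum_add (S : List ℕ) (B1 B2 : Multiset ℕ) :
    (cvec S (B1 + B2)).sum = (cvec S B1).sum + (cvec S B2).sum := by
  induction S with
  | nil => simp [cvec]
  | cons s S ih =>
    simp only [cvec, List.map_cons, List.sum_cons, Multiset.count_add] at ih ⊢
    rw [ih]; ring

theorem cvec_sum_sum (S : List ℕ) (bins : List (Multiset ℕ)) :
    (bins.map fun B => (cvec S B).sum).sum = (cvec S bins.sum).sum := by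
  induction bins with
  | nil => simp [cvec]
  | cons B bins ih => simp [cvec_sum_add, ih]

theorem sum_div_le {α : Type*} (f : α → ℕ) (D : ℕ) (l : List α) :
    (l.map fun x => f x / D).sum ≤ (l.map f).sum / D := by
  induction l with
  | nil => simp
  | cons x l ih =>
    simp only [List.map_cons, List.sum_cons]
    exact le_trans (Nat.add_le_add_left ih _) Nat.div_add_div_le_add_div

/-- Soundness of the derived inequalities, in a form closed under nonnegative combinations. -/
theorem coefs_le_betas (S : List ℕ) (k : ℕ) (bins : List (Multiset ℕ)) (hlen : bins.length = k) :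
    ∀ (cuts : List Cut) (Mu : List ℕ),
      (bins.map fun B => dot Mu (coefs (cvec S B) cuts)).sum
        ≤ dot Mu (betas (cvec S bins.sum) k cuts) := by
  intro cuts
  induction cuts with
  | nil => intro Mu; simp [coefs, betas, dot_nil_right]
  | cons c rest ih =>
    intro Mu
    cases Mu with
    | nil => simp [dot]
    | cons μ Mu =>
      simp only [coefs, betas, dot]
      rw [List.sum_map_add, List.sum_map_mul_left]
      have h1 := ih Mu
      have h2 : (bins.map fun B =>
          (dot c.U (cvec S B) + c.N + dot c.Mu (coefs (cvec S B) rest)) / c.D).sum
          ≤ (dot c.U (cvec S bins.sum) + c.N * k + dot c.Mu (betas (cvec S bins.sum) k rest))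
            / c.D := by
        refine le_trans (sum_div_le _ _ _) (Nat.div_le_div_right ?_)
        rw [List.sum_map_add, List.sum_map_add, dot_cvec_sum]
        have h3 := ih c.Mu
        have h4 : (bins.map fun _ => c.N).sum = c.N * k := by
          rw [List.map_const', List.sum_replicate, hlen, smul_eq_mul, Nat.mul_comm]
        omega
      have h5 := Nat.mul_le_mul_left μ h2
      omega

theorem count_filter_ne_self (B : Multiset ℕ) (s : ℕ) :
    (B.filter fun a => ¬ a = s).count s = 0 := by
  rw [Multiset.count_eq_zero]
  intro h
  exact (Multiset.mem_filter.mp h).2 rfl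

/-- The count vector of a feasible bin is found by the enumeration `subs`. -/
theorem cvec_mem_subs (mu : ℕ → ℕ) : ∀ (S : List ℕ), S.Nodup → ∀ (B : Multiset ℕ) (cap : ℕ),
    (∀ a ∈ B, a ∈ S) → (∀ s ∈ S, B.count s ≤ mu s) → B.sum ≤ cap →
    cvec S B ∈ subs (S.map fun s => (s, mu s)) cap := by
  intro S
  induction S with
  | nil =>
    intro _ B cap hB _ _
    simp [cvec, subs]
  | cons s S ih =>
    intro hnd B cap hB hc hs
    rw [List.nodup_cons] at hnd
    obtain ⟨hsS, hnd'⟩ := hnd
    set B' := B.filter fun a => ¬ a = s with hB'
    have hsplit : B = Multiset.replicate (B.count s) s + B' := by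
      have := Multiset.filter_add_not (fun a => a = s) B
      rw [Multiset.filter_eq' B s] at this
      exact this.symm
    have hsum : B.sum = B.count s * s + B'.sum := by
      conv_lhs => rw [hsplit]
      rw [Multiset.sum_add, Multiset.sum_replicate, smul_eq_mul]
    have hcount : ∀ x ∈ S, B'.count x = B.count x := by
      intro x hx
      have hxs : ¬ x = s := fun h => hsS (h ▸ hx)
      rw [hB', Multiset.count_filter]
      simp [hxs]
    have hmem' : ∀ a ∈ B', a ∈ S := by
      intro a ha
      rw [hB', Multiset.mem_filter] at ha
      have := hB a ha.1
      rw [List.mem_cons] at this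
      rcases this with h | h
      · exact absurd h ha.2
      · exact h
    have hc' : ∀ x ∈ S, B'.count x ≤ mu x := by
      intro x hx
      rw [hcount x hx]
      exact hc x (List.mem_cons_of_mem _ hx)
    have hs' : B'.sum ≤ cap - B.count s * s := by omega
    have ih' := ih hnd' B' (cap - B.count s * s) hmem' hc' hs'
    have hcv : cvec S B' = cvec S B := by
      unfold cvec
      exact List.map_congr_left hcount
    rw [hcv] at ih'
    have hle : B.count s * s ≤ cap := by omega
    have hcs : B.count s ≤ mu s := hc s List.mem_cons_self
    simp only [cvec, List.map_cons, subs, List.mem_flatMap, List.mem_range]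
    refine ⟨B.count s, by omega, ?_⟩
    rw [if_pos hle]
    exact List.mem_map.mpr ⟨_, ih', rfl⟩

theorem le_sum_of_mem_bins {bins : List (Multiset ℕ)} {B : Multiset ℕ} (hB : B ∈ bins) :
    B ≤ bins.sum := by
  have hperm : bins.Perm (B :: bins.erase B) := List.perm_cons_erase hB
  rw [hperm.sum_eq, List.sum_cons]
  exact Multiset.le_add_right _ _

/-- A successful check shows that the items of `L` do not fit into `k` bins of capacity `G`. -/
theorem not_canPack_of_cuts (G k : ℕ) (L S : List ℕ) (cuts : List Cut)
    (h : cgCheck G k L S cuts = true) : ¬ CanPack G k (L : Multiset ℕ) := by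
  rintro ⟨bins, hlen, hsum, hle⟩
  simp only [cgCheck, Bool.and_eq_true, decide_eq_true_eq, List.all_eq_true] at h
  obtain ⟨⟨⟨hnd, hmem⟩, hall⟩, hbeta⟩ := h
  have hm : cvec S bins.sum = S.map fun s => L.count s := by
    rw [hsum]
    unfold cvec
    exact List.map_congr_left fun s _ => Multiset.coe_count s L
  have hbin : ∀ B ∈ bins, (cvec S B).sum ≤ (coefs (cvec S B) cuts).headD 0 := by
    intro B hB
    have hBle : B ≤ (L : Multiset ℕ) := hsum ▸ le_sum_of_mem_bins hB
    apply hall
    apply cvec_mem_subs (fun s => L.count s) S hnd B G
    · intro a ha
      exact hmem a (Multiset.mem_coe.mp (Multiset.mem_of_le hBle ha))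
    · intro s _
      have := Multiset.count_le_of_le s hBle
      rwa [Multiset.coe_count] at this
    · exact hle B hB
  have h1 : (bins.map fun B => (cvec S B).sum).sum = (S.map fun s => L.count s).sum := by
    rw [cvec_sum_sum, hm]
  have h2 := coefs_le_betas S k bins hlen cuts [1]
  rw [hm] at h2
  have h3 : (bins.map fun B => (cvec S B).sum).sum
      ≤ (bins.map fun B => (coefs (cvec S B) cuts).headD 0).sum :=
    List.sum_le_sum hbin
  have h4 : ∀ l : List ℕ, dot [1] l = l.headD 0 := by
    intro l
    cases l <;> simp [dot]
  simp only [h4] at h2
  omega

end Vale.Agent.Lib.P302
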