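import Vale.Agent.Lib.P302.CutCert

/-!
# P302: cutting-plane certificates, fast check

The same certificates as in `CutCert`, with the multipliers stored per item type, so that the
check walks once through the feasible bins and keeps running sums.
-/

namespace Vale.Agent.Lib.P302

/-- A derivation step without its size multipliers: the multiplier `N` of the number of bins,
the multipliers `Mu` of the earlier steps (most recent first) and the divisor `D`. -/
structure Step where
  /-- multiplier of the number of bins -/
  N : ℕ
  /-- multipliers of the earlier steps, most recent first -/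
  Mu : List ℕ
  /-- the divisor -/
  D : ℕ

/-- An item type: its size `s`, its multiplicity `m` and its multipliers `w` in the derivation
steps (most recent first). -/
structure Ty where
  /-- the size -/
  s : ℕ
  /-- the multiplicity -/
  m : ℕ
  /-- the multipliers of this size, one per step, most recent first -/
  w : List ℕ

/-- Entrywise sum of two lists; the shorter one is padded with zeros. -/
def vadd : List ℕ → List ℕ → List ℕ
  | [], b => b
  | a :: as, [] => a :: as
  | x :: a, y :: b => (x + y) :: vadd a b

/-- Add `w` to `acc` a given number of times. -/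
def addn (w : List ℕ) : ℕ → List ℕ → List ℕ
  | 0, acc => acc
  | j + 1, acc => addn w j (vadd acc w)

/-- The running sums of a bin `B`, starting from `acc`. -/
def accOf : List Ty → Multiset ℕ → List ℕ → List ℕ
  | [], _, acc => acc
  | t :: st, B, acc => accOf st B (addn t.w (B.count t.s) acc)

/-- The `j`-th linear form of a bin. -/
def wsumJ (j : ℕ) : List Ty → Multiset ℕ → ℕ
  | [], _ => 0
  | t :: st, B => B.count t.s * t.w.getD j 0 + wsumJ j st B

/-- One step of the coefficient computation. -/
def stepCoef (c : Step) (x : ℕ) (prev : List ℕ) : List ℕ :=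
  ((x + c.N + dot c.Mu prev) / c.D) :: prev

/-- The coefficients of the steps from position `d` on (most recent first) for a bin whose
linear forms are `a`. -/
def coefF (a : ℕ → ℕ) : ℕ → List Step → List ℕ
  | _, [] => []
  | d, c :: rest => stepCoef c (a d) (coefF a (d + 1) rest)

/-- One step of the bound computation. -/
def stepBeta (c : Step) (k x : ℕ) (prev : List ℕ) : List ℕ :=
  ((x + c.N * k + dot c.Mu prev) / c.D) :: prev

/-- The bounds of the steps from position `d` on. -/
def betaF (a : ℕ → ℕ) (k : ℕ) : ℕ → List Step → List ℕ
  | _, [] => []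
  | d, c :: rest => stepBeta c k (a d) (betaF a k (d + 1) rest)

/-- Try all numbers of copies of one size. -/
def goCopies (f : ℕ → List ℕ → ℕ → Bool) (s : ℕ) (w : List ℕ) :
    ℕ → ℕ → List ℕ → ℕ → Bool
  | 0, cap, acc, cnt => f cap acc cnt
  | j + 1, cap, acc, cnt =>
      f cap acc cnt &&
        (if s ≤ cap then goCopies f s w j (cap - s) (vadd acc w) (cnt + 1) else true)

/-- Walk through all feasible bins and apply `leaf` to the running sums and the number of
items. -/
def chkAll (leaf : List ℕ → ℕ → Bool) : List Ty → ℕ → List ℕ → ℕ → Bool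
  | [], _, acc, cnt => leaf acc cnt
  | t :: st, cap, acc, cnt => goCopies (chkAll leaf st) t.s t.w t.m cap acc cnt

/-- The fast certificate check. -/
def fastCheck (G k : ℕ) (L : List ℕ) (tys : List Ty) (steps : List Step) : Bool :=
  decide (tys.map Ty.s).Nodup && L.all (fun a => decide (a ∈ tys.map Ty.s)) &&
  tys.all (fun t => decide (L.count t.s = t.m)) &&
  chkAll (fun acc cnt => decide (cnt ≤ (coefF (fun j => acc.getD j 0) 0 steps).headD 0))
    tys G [] 0 &&
  decide ((betaF (fun j => (tys.map fun t => t.m * t.w.getD j 0).sum) k 0 steps).headD 0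
    < L.length)

theorem vadd_getD (j : ℕ) : ∀ (a b : List ℕ), (vadd a b).getD j 0 = a.getD j 0 + b.getD j 0 := by
  induction j with
  | zero =>
    intro a b
    cases a with
    | nil => simp [vadd]
    | cons x a =>
      cases b with
      | nil => simp [vadd]
      | cons y b => simp [vadd]
  | succ j ih =>
    intro a b
    cases a with
    | nil => simp [vadd]
    | cons x a =>
      cases b with
      | nil => simp [vadd]
      | cons y b => simpa [vadd] using ih a b

theorem addn_getD (w : List ℕ) (j : ℕ) : ∀ (n : ℕ) (acc : List ℕ),
    (addn w n acc).getD j 0 = acc.getD j 0 + n * w.getD j 0 := by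
  intro n
  induction n with
  | zero => intro acc; simp [addn]
  | succ n ih =>
    intro acc
    rw [addn, ih, vadd_getD]
    ring

theorem accOf_getD (j : ℕ) (B : Multiset ℕ) : ∀ (tys : List Ty) (acc : List ℕ),
    (accOf tys B acc).getD j 0 = acc.getD j 0 + wsumJ j tys B := by
  intro tys
  induction tys with
  | nil => intro acc; simp [accOf, wsumJ]
  | cons t st ih =>
    intro acc
    rw [accOf, ih, addn_getD, wsumJ]
    ring

theorem accOf_congr (B B' : Multiset ℕ) : ∀ (tys : List Ty) (acc : List ℕ),
    (∀ t ∈ tys, B'.count t.s = B.count t.s) → accOf tys B' acc = accOf tys B acc := by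
  intro tys
  induction tys with
  | nil => intro acc _; rfl
  | cons t st ih =>
    intro acc h
    rw [accOf, accOf, h t List.mem_cons_self]
    exact ih _ fun t' ht' => h t' (List.mem_cons_of_mem _ ht')

theorem wsumJ_add (j : ℕ) (B1 B2 : Multiset ℕ) : ∀ (tys : List Ty),
    wsumJ j tys (B1 + B2) = wsumJ j tys B1 + wsumJ j tys B2 := by
  intro tys
  induction tys with
  | nil => simp [wsumJ]
  | cons t st ih =>
    rw [wsumJ, wsumJ, wsumJ, ih, Multiset.count_add]
    ring

theorem wsumJ_zero (j : ℕ) : ∀ (tys : List Ty), wsumJ j tys 0 = 0 := by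
  intro tys
  induction tys with
  | nil => simp [wsumJ]
  | cons t st ih => rw [wsumJ, ih]; simp

theorem wsumJ_sum (j : ℕ) (tys : List Ty) (bins : List (Multiset ℕ)) :
    (bins.map fun B => wsumJ j tys B).sum = wsumJ j tys bins.sum := by
  induction bins with
  | nil => simp [wsumJ_zero]
  | cons B bins ih => simp [wsumJ_add, ih]

theorem wsumJ_coe (j : ℕ) (L : List ℕ) : ∀ (tys : List Ty), (∀ t ∈ tys, L.count t.s = t.m) →
    wsumJ j tys (L : Multiset ℕ) = (tys.map fun t => t.m * t.w.getD j 0).sum := by
  intro tys
  induction tys with
  | nil => intro _; simp [wsumJ]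
  | cons t st ih =>
    intro h
    rw [wsumJ, ih fun t' ht' => h t' (List.mem_cons_of_mem _ ht'), Multiset.coe_count,
      h t List.mem_cons_self]
    simp

theorem goCopies_sound (f : ℕ → List ℕ → ℕ → Bool) (s : ℕ) (w : List ℕ) :
    ∀ (m cap : ℕ) (acc : List ℕ) (cnt : ℕ), goCopies f s w m cap acc cnt = true →
      ∀ c, c ≤ m → c * s ≤ cap → f (cap - c * s) (addn w c acc) (cnt + c) = true := by
  intro m
  induction m with
  | zero =>
    intro cap acc cnt h c hc _
    have hc0 : c = 0 := by omega
    subst hc0
    simpa [goCopies, addn] using h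
  | succ m ih =>
    intro cap acc cnt h c hc hcs
    rw [goCopies, Bool.and_eq_true] at h
    obtain ⟨h1, h2⟩ := h
    cases c with
    | zero => simpa [addn] using h1
    | succ c =>
      have hmul : (c + 1) * s = c * s + s := Nat.succ_mul c s
      have hs : s ≤ cap := by omega
      rw [if_pos hs] at h2
      have h3 := ih (cap - s) (vadd acc w) (cnt + 1) h2 c (by omega) (by omega)
      have e1 : cap - (c + 1) * s = cap - s - c * s := by omega
      have e2 : cnt + (c + 1) = cnt + 1 + c := by omega
      rw [e1, e2, addn]
      exact h3

theorem card_filter_ne (B : Multiset ℕ) (s : ℕ) :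
    B.card = B.count s + (B.filter fun a => ¬ a = s).card := by
  have h := Multiset.filter_add_not (fun a => a = s) B
  rw [Multiset.filter_eq' B s] at h
  conv_lhs => rw [← h]
  rw [Multiset.card_add, Multiset.card_replicate]

/-- The walk reaches every feasible bin. -/
theorem chkAll_sound (leaf : List ℕ → ℕ → Bool) : ∀ (tys : List Ty), (tys.map Ty.s).Nodup →
    ∀ (cap : ℕ) (acc : List ℕ) (cnt : ℕ), chkAll leaf tys cap acc cnt = true →
    ∀ B : Multiset ℕ, (∀ a ∈ B, a ∈ tys.map Ty.s) → (∀ t ∈ tys, B.count t.s ≤ t.m) →
      B.sum ≤ cap → leaf (accOf tys B acc) (cnt + B.card) = true := by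
  intro tys
  induction tys with
  | nil =>
    intro _ cap acc cnt h B hB _ _
    have hB0 : B = 0 := Multiset.eq_zero_of_forall_notMem fun a ha => by simpa using hB a ha
    subst hB0
    simpa [chkAll, accOf] using h
  | cons t st ih =>
    intro hnd cap acc cnt h B hB hc hs
    rw [List.map_cons, List.nodup_cons] at hnd
    obtain ⟨hsS, hnd'⟩ := hnd
    set B' := B.filter fun a => ¬ a = t.s with hB'
    have hsplit : B = Multiset.replicate (B.count t.s) t.s + B' := by
      have := Multiset.filter_add_not (fun a => a = t.s) B
      rw [Multiset.filter_eq' B t.s] at this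
      exact this.symm
    have hsum : B.sum = B.count t.s * t.s + B'.sum := by
      conv_lhs => rw [hsplit]
      rw [Multiset.sum_add, Multiset.sum_replicate, smul_eq_mul]
    have hcount : ∀ t' ∈ st, B'.count t'.s = B.count t'.s := by
      intro t' ht'
      have hxs : ¬ t'.s = t.s := fun h => hsS (h ▸ List.mem_map_of_mem ht')
      rw [hB', Multiset.count_filter]
      simp [hxs]
    have hmem' : ∀ a ∈ B', a ∈ st.map Ty.s := by
      intro a ha
      rw [hB', Multiset.mem_filter] at ha
      have := hB a ha.1
      rw [List.map_cons, List.mem_cons] at this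
      rcases this with h | h
      · exact absurd h ha.2
      · exact h
    have hc' : ∀ t' ∈ st, B'.count t'.s ≤ t'.m := by
      intro t' ht'
      rw [hcount t' ht']
      exact hc t' (List.mem_cons_of_mem _ ht')
    have hle : B.count t.s * t.s ≤ cap := by omega
    have hs' : B'.sum ≤ cap - B.count t.s * t.s := by omega
    rw [chkAll] at h
    have h1 := goCopies_sound (chkAll leaf st) t.s t.w t.m cap acc cnt h (B.count t.s)
      (hc t List.mem_cons_self) hle
    have h2 := ih hnd' _ _ _ h1 B' hmem' hc' hs'
    rw [accOf_congr B B' st _ hcount] at h2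
    have hcard : cnt + B.card = cnt + B.count t.s + B'.card := by
      have hcf := card_filter_ne B t.s
      rw [← hB'] at hcf
      omega
    rw [accOf, hcard]
    exact h2

/-- Soundness of the derived inequalities, in a form closed under nonnegative combinations. -/
theorem coefF_le_betaF (tys : List Ty) (k : ℕ) (bins : List (Multiset ℕ))
    (hlen : bins.length = k) :
    ∀ (steps : List Step) (d : ℕ) (Mu : List ℕ),
      (bins.map fun B => dot Mu (coefF (fun j => wsumJ j tys B) d steps)).sum
        ≤ dot Mu (betaF (fun j => wsumJ j tys bins.sum) k d steps) := by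
  intro steps
  induction steps with
  | nil => intro d Mu; simp [coefF, betaF, dot_nil_right]
  | cons c rest ih =>
    intro d Mu
    cases Mu with
    | nil => simp [dot]
    | cons μ Mu =>
      simp only [coefF, betaF, stepCoef, stepBeta, dot]
      rw [List.sum_map_add, List.sum_map_mul_left]
      have h1 := ih (d + 1) Mu
      have h2 : (bins.map fun B =>
          (wsumJ d tys B + c.N + dot c.Mu (coefF (fun j => wsumJ j tys B) (d + 1) rest))
            / c.D).sum
          ≤ (wsumJ d tys bins.sum + c.N * k
              + dot c.Mu (betaF (fun j => wsumJ j tys bins.sum) k (d + 1) rest)) / c.D := by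
        refine le_trans (sum_div_le _ _ _) (Nat.div_le_div_right ?_)
        rw [List.sum_map_add, List.sum_map_add, wsumJ_sum]
        have h3 := ih (d + 1) c.Mu
        have h4 : (bins.map fun _ => c.N).sum = c.N * k := by
          rw [List.map_const', List.sum_replicate, hlen, smul_eq_mul, Nat.mul_comm]
        omega
      have h5 := Nat.mul_le_mul_left μ h2
      omega

theorem card_list_sum_bins (bins : List (Multiset ℕ)) :
    (bins.map fun B => B.card).sum = bins.sum.card := by
  induction bins with
  | nil => simp
  | cons B bins ih => simp [ih]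

/-- A successful fast check shows that the items of `L` do not fit into `k` bins of capacity
`G`. -/
theorem not_canPack_of_fast (G k : ℕ) (L : List ℕ) (tys : List Ty) (steps : List Step)
    (h : fastCheck G k L tys steps = true) : ¬ CanPack G k (L : Multiset ℕ) := by
  rintro ⟨bins, hlen, hsum, hle⟩
  simp only [fastCheck, Bool.and_eq_true, decide_eq_true_eq, List.all_eq_true] at h
  obtain ⟨⟨⟨⟨hnd, hmem⟩, hcnt⟩, hall⟩, hbeta⟩ := h
  have hfun : ∀ B : Multiset ℕ,
      (fun j => (accOf tys B []).getD j 0) = fun j => wsumJ j tys B := by
    intro B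
    funext j
    rw [accOf_getD]
    simp
  have hbin : ∀ B ∈ bins,
      B.card ≤ (coefF (fun j => wsumJ j tys B) 0 steps).headD 0 := by
    intro B hB
    have hBle : B ≤ (L : Multiset ℕ) := hsum ▸ le_sum_of_mem_bins hB
    have h1 := chkAll_sound _ tys hnd G [] 0 hall B
      (fun a ha => hmem a (Multiset.mem_coe.mp (Multiset.mem_of_le hBle ha)))
      (fun t ht => by
        have := Multiset.count_le_of_le t.s hBle
        rw [Multiset.coe_count, hcnt t ht] at this
        exact this)
      (hle B hB)
    simp only [decide_eq_true_eq, Nat.zero_add] at h1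
    rw [hfun B] at h1
    exact h1
  have h2 := coefF_le_betaF tys k bins hlen steps 0 [1]
  have h4 : ∀ l : List ℕ, dot [1] l = l.headD 0 := by
    intro l
    cases l <;> simp [dot]
  simp only [h4] at h2
  have hM : (fun j => wsumJ j tys bins.sum)
      = fun j => (tys.map fun t => t.m * t.w.getD j 0).sum := by
    funext j
    rw [hsum]
    exact wsumJ_coe j L tys hcnt
  rw [hM] at h2
  have h3 : (bins.map fun B => B.card).sum
      ≤ (bins.map fun B => (coefF (fun j => wsumJ j tys B) 0 steps).headD 0).sum :=
    List.sum_le_sum hbin
  have h5 : (bins.map fun B => B.card).sum = L.length := by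
    rw [card_list_sum_bins, hsum]
    simp
  omega

end Vale.Agent.Lib.P302
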