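import Vale.Agent.Lib.P302.CutFast

/-!
# P302: cutting-plane certificates, check with a shortcut

The check of `CutFast`, except that on every feasible bin the contribution of the earlier steps
to the last step is only computed when the bin is not already settled without it.
-/

namespace Vale.Agent.Lib.P302

/-- Leaf test with a shortcut. -/
def leafQ : List Step → List ℕ → ℕ → Bool
  | [], _, cnt => decide (cnt ≤ 0)
  | c :: rest, acc, cnt =>
      decide (cnt ≤ (acc.getD 0 0 + c.N) / c.D) ||
        decide (cnt ≤ (coefF (fun j => acc.getD j 0) 0 (c :: rest)).headD 0)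

theorem leafQ_imp (steps : List Step) (acc : List ℕ) (cnt : ℕ) (h : leafQ steps acc cnt = true) :
    cnt ≤ (coefF (fun j => acc.getD j 0) 0 steps).headD 0 := by
  cases steps with
  | nil => simpa [leafQ, coefF] using h
  | cons c rest =>
    rw [leafQ, Bool.or_eq_true, decide_eq_true_eq, decide_eq_true_eq] at h
    rcases h with h | h
    · refine le_trans h ?_
      simp only [coefF, stepCoef, List.headD_cons]
      exact Nat.div_le_div_right (Nat.le_add_right _ _)
    · exact h

/-- The certificate check with the shortcut. -/
def quickCheck (G k : ℕ) (L : List ℕ) (tys : List Ty) (steps : List Step) : Bool :=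
  decide (tys.map Ty.s).Nodup && L.all (fun a => decide (a ∈ tys.map Ty.s)) &&
  tys.all (fun t => decide (L.count t.s = t.m)) &&
  chkAll (leafQ steps) tys G [] 0 &&
  decide ((betaF (fun j => (tys.map fun t => t.m * t.w.getD j 0).sum) k 0 steps).headD 0
    < L.length)

/-- A successful check shows that the items of `L` do not fit into `k` bins of capacity `G`. -/
theorem not_canPack_of_quick (G k : ℕ) (L : List ℕ) (tys : List Ty) (steps : List Step)
    (h : quickCheck G k L tys steps = true) : ¬ CanPack G k (L : Multiset ℕ) := by
  rintro ⟨bins, hlen, hsum, hle⟩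
  simp only [quickCheck, Bool.and_eq_true, decide_eq_true_eq, List.all_eq_true] at h
  obtain ⟨⟨⟨⟨hnd, hmem⟩, hcnt⟩, hall⟩, hbeta⟩ := h
  have hfun : ∀ B : Multiset ℕ,
      (fun j => (accOf tys B []).getD j 0) = fun j => wsumJ j tys B := by
    intro B
    funext j
    rw [accOf_getD]
    simp
  have hbin : ∀ B ∈ bins,
      B.card ≤ (coefF (fun j => wsumJ j tys B) 0 steps).headD 0 := by
    intro B hB
    have hBle : B ≤ (L : Multiset ℕ) := hsum ▸ le_sum_of_mem_bins hB
    have h1 := chkAll_sound _ tys hnd G [] 0 hall B
      (fun a ha => hmem a (Multiset.mem_coe.mp (Multiset.mem_of_le hBle ha)))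
      (fun t ht => by
        have := Multiset.count_le_of_le t.s hBle
        rw [Multiset.coe_count, hcnt t ht] at this
        exact this)
      (hle B hB)
    have h1' := leafQ_imp _ _ _ h1
    rw [hfun B, Nat.zero_add] at h1'
    exact h1'
  have h2 := coefF_le_betaF tys k bins hlen steps 0 [1]
  have h4 : ∀ l : List ℕ, dot [1] l = l.headD 0 := by
    intro l
    cases l <;> simp [dot]
  simp only [h4] at h2
  have hM : (fun j => wsumJ j tys bins.sum)
      = fun j => (tys.map fun t => t.m * t.w.getD j 0).sum := by
    funext j
    rw [hsum]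
    exact wsumJ_coe j L tys hcnt
  rw [hM] at h2
  have h3 : (bins.map fun B => B.card).sum
      ≤ (bins.map fun B => (coefF (fun j => wsumJ j tys B) 0 steps).headD 0).sum :=
    List.sum_le_sum hbin
  have h5 : (bins.map fun B => B.card).sum = L.length := by
    rw [card_list_sum_bins, hsum]
    simp
  omega

end Vale.Agent.Lib.P302
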