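import Mathlib

/-!
# P302: bin packing, the optimum and the Gilmore-Gomory configuration LP

An instance is a finite list `a` of rational item sizes (the hand-ins only use sizes in `(0,1]`).
-/

namespace Vale.Agent.Lib.P302

/-- `IsPacking a k f`: the assignment `f` of the items of `a` (indexed by position) to `k` bins
puts total size at most `1` into every bin. -/
def IsPacking (a : List ℚ) (k : ℕ) (f : Fin a.length → Fin k) : Prop :=
  ∀ b : Fin k, (∑ i : Fin a.length, if f i = b then a.get i else 0) ≤ 1

/-- `opt a`: the least number of bins into which the items of `a` can be partitioned. -/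
noncomputable def opt (a : List ℚ) : ℕ :=
  sInf {k : ℕ | ∃ f : Fin a.length → Fin k, IsPacking a k f}

/-- A configuration of the instance `a`: a finitely supported multiplicity function on the
sizes occurring in `a` (a size may be used more often than it occurs in `a`), of total size
at most `1`. -/
def IsConfig (a : List ℚ) (c : ℚ →₀ ℕ) : Prop :=
  (∀ s ∈ c.support, s ∈ a) ∧ (c.sum fun s m => s * (m : ℚ)) ≤ 1

/-- A feasible point of the configuration LP of `a`: nonnegative weights `z c` on finitely many
configurations `c` such that every size `s` of `a` is covered at least as often as it occurs: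
`∑_c c(s) * z_c ≥ n_s`. -/
def IsFractional (a : List ℚ) (z : (ℚ →₀ ℕ) →₀ ℝ) : Prop :=
  (∀ c, 0 ≤ z c) ∧ (∀ c ∈ z.support, IsConfig a c) ∧
    ∀ s ∈ a, (a.count s : ℝ) ≤ z.sum fun c w => (c s : ℝ) * w

/-- `lp a`: the value of the configuration LP, the infimum of `∑_c z_c` over feasible points. -/
noncomputable def lp (a : List ℚ) : ℝ :=
  sInf {v : ℝ | ∃ z : (ℚ →₀ ℕ) →₀ ℝ, IsFractional a z ∧ v = z.sum fun _ w => w}

end Vale.Agent.Lib.P302
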