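import Vale.Agent.Lib.P302.Triples

/-!
# P302: a kernel certificate for instances built from a sensitive core

The instance consists of a core, some huge items (no core item and no other huge item fits
beside a huge item) and some fillers.  If the fillers cannot all be placed beside the huge
items, one filler has to be packed with the core; if the core together with one more item of
size `t` (a lower bound for the fillers) does not fit into `k` bins, the whole instance does not
fit into `k` bins plus one bin for each huge item.
-/

namespace Vale.Agent.Lib.P302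

/-- Remove the bin containing a given item. -/
theorem CanPack.peel {G k : ℕ} {M : Multiset ℕ} (h : CanPack G (k + 1) M) (x : ℕ) (hx : x ∈ M) :
    ∃ B : Multiset ℕ, x ∈ B ∧ B ≤ M ∧ B.sum ≤ G ∧ CanPack G k (M - B) := by
  obtain ⟨bins, hlen, hsum, hle⟩ := h
  subst hsum
  obtain ⟨B, hB, hxB⟩ := mem_list_sum hx
  refine ⟨B, hxB, ?_, hle B hB, bins.erase B, ?_, ?_, ?_⟩
  · rw [list_sum_erase hB]; exact Multiset.le_add_right _ _
  · rw [List.length_erase_of_mem hB, hlen]; rfl
  · rw [list_sum_erase hB]; simp
  · intro B' hB'; exact hle B' (List.mem_of_mem_erase hB')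

theorem sum_le_of_le {A B : Multiset ℕ} (h : A ≤ B) : A.sum ≤ B.sum := by
  obtain ⟨C, rfl⟩ := Multiset.le_iff_exists_add.mp h
  rw [Multiset.sum_add]; exact Nat.le_add_right _ _

/-- A sub-multiset of a packable multiset is packable. -/
theorem CanPack.sub {G k : ℕ} {M M' : Multiset ℕ} (h : CanPack G k M) (hle : M' ≤ M) :
    CanPack G k M' := by
  obtain ⟨bins, hlen, hsum, hbin⟩ := h
  subst hsum
  induction bins generalizing k M' with
  | nil =>
    refine ⟨[], hlen, ?_, by simp⟩
    simp only [List.sum_nil] at hle ⊢
    exact (Multiset.le_zero.mp hle).symm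
  | cons B bins ih =>
    obtain ⟨k', rfl⟩ : ∃ k', k = k' + 1 := ⟨bins.length, by simpa using hlen.symm⟩
    have hrest : M' - M' ∩ B ≤ bins.sum := by
      rw [Multiset.le_iff_count]
      intro a
      have h1 := Multiset.le_iff_count.mp hle a
      rw [List.sum_cons, Multiset.count_add] at h1
      rw [Multiset.count_sub, Multiset.count_inter]
      omega
    obtain ⟨bins', hlen', hsum', hbin'⟩ := ih (k := k') (M' := M' - M' ∩ B)
      (by simpa using hlen) (fun B' hB' => hbin B' (by simp [hB'])) hrest
    refine ⟨(M' ∩ B) :: bins', by simp [hlen'], ?_, ?_⟩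
    · rw [List.sum_cons, hsum']
      exact add_tsub_cancel_of_le Multiset.inter_le_left
    · intro B' hB'
      rw [List.mem_cons] at hB'
      rcases hB' with rfl | hB'
      · exact le_trans (sum_le_of_le Multiset.inter_le_right) (hbin B (by simp))
      · exact hbin' B' hB'

/-- Shrinking one item keeps a multiset packable. -/
theorem CanPack.shrink {G k : ℕ} {M : Multiset ℕ} {f t : ℕ} (h : CanPack G k (f ::ₘ M))
    (ht : t ≤ f) : CanPack G k (t ::ₘ M) := by
  obtain ⟨bins, hlen, hsum, hbin⟩ := h
  have hf : f ∈ bins.sum := by rw [hsum]; simp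
  obtain ⟨B, hB, hfB⟩ := mem_list_sum hf
  have hTs := list_sum_erase hB
  refine ⟨(t ::ₘ B.erase f) :: bins.erase B, ?_, ?_, ?_⟩
  · rw [List.length_cons, List.length_erase_of_mem hB, hlen]
    have : 0 < bins.length := List.length_pos_of_mem hB
    omega
  · rw [List.sum_cons, Multiset.cons_add]
    congr 1
    have h1 : f ::ₘ (B.erase f + (bins.erase B).sum) = f ::ₘ M := by
      rw [← Multiset.cons_add, Multiset.cons_erase hfB, ← hTs, hsum]
    exact (Multiset.cons_inj_right f).mp h1
  · intro B' hB'
    rw [List.mem_cons] at hB'
    rcases hB' with rfl | hB'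
    · rw [Multiset.sum_cons]
      have := Multiset.sum_erase hfB
      have := hbin B hB
      omega
    · exact hbin B' (List.mem_of_mem_erase hB')

theorem two_le_sum {S : Multiset ℕ} {x y : ℕ} (hx : x ∈ S) (hy : y ∈ S.erase x) :
    x + y ≤ S.sum := by
  have h1 := Multiset.sum_erase hx
  have h2 := Multiset.sum_erase hy
  omega

/-- Removing the bins of the huge items one by one: the huge items `hs` occupy one bin each,
together with a part `F'` of the fillers only; the core and the other fillers are packed into
the remaining `k` bins. -/
theorem CanPack.split_huge {G k : ℕ} (core : Multiset ℕ)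
    (hs : List ℕ) : ∀ (F : Multiset ℕ),
    (∀ h ∈ hs, ∀ h' ∈ hs, G < h + h') → (∀ h ∈ hs, ∀ c ∈ core, G < h + c) →
    CanPack G (k + hs.length) (core + (hs : Multiset ℕ) + F) →
    ∃ F' : Multiset ℕ, F' ≤ F ∧ CanPack G hs.length ((hs : Multiset ℕ) + F') ∧
      CanPack G k (core + (F - F')) := by
  induction hs with
  | nil =>
    intro F _ _ h
    refine ⟨0, Multiset.zero_le F, ⟨[], rfl, by simp, by simp⟩, ?_⟩
    simpa using h
  | cons h tl ih =>
    intro F hhh hhc hcan
    have hcan' : CanPack G (k + tl.length + 1) (core + ((h :: tl : List ℕ) : Multiset ℕ) + F) := by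
      simpa [Nat.add_assoc] using hcan
    obtain ⟨B, hB, hBle, hBsum, hrest⟩ := hcan'.peel h (by simp)
    obtain ⟨r, hBr⟩ : ∃ r, B = h ::ₘ r := ⟨B.erase h, (Multiset.cons_erase hB).symm⟩
    have hM : core + ((h :: tl : List ℕ) : Multiset ℕ) + F
        = h ::ₘ (core + (tl : Multiset ℕ) + F) := by
      rw [← Multiset.cons_coe, Multiset.add_cons, Multiset.cons_add]
    have hrle0 : r ≤ core + (tl : Multiset ℕ) + F := by
      rw [hBr, hM] at hBle
      exact (Multiset.cons_le_cons_iff h).mp hBle
    have hrsum : ∀ x ∈ r, h + x ≤ G := by
      intro x hx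
      have : h + x ≤ B.sum := by
        rw [hBr, Multiset.sum_cons]
        exact Nat.add_le_add_left (Multiset.single_le_sum (fun _ _ => Nat.zero_le _) x hx) h
      omega
    have hrF : r ≤ F := by
      rw [Multiset.le_iff_count]
      intro x
      by_cases hx : x ∈ r
      · have h1 := Multiset.le_iff_count.mp hrle0 x
        have hxc : x ∉ core := fun hc => by
          have := hhc h (by simp) x hc
          have := hrsum x hx
          omega
        have hxt : x ∉ (tl : Multiset ℕ) := fun ht => by
          have := hhh h (by simp) x (by simp [Multiset.mem_coe.mp ht])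
          have := hrsum x hx
          omega
        rw [Multiset.count_add, Multiset.count_add, Multiset.count_eq_zero_of_notMem hxc,
          Multiset.count_eq_zero_of_notMem hxt] at h1
        omega
      · rw [Multiset.count_eq_zero_of_notMem hx]; exact Nat.zero_le _
    have hrest' : CanPack G (k + tl.length) (core + (tl : Multiset ℕ) + (F - r)) := by
      have : core + ((h :: tl : List ℕ) : Multiset ℕ) + F - B
          = core + (tl : Multiset ℕ) + (F - r) := by
        rw [hM, hBr, Multiset.sub_cons, Multiset.erase_cons_head]
        rw [add_tsub_assoc_of_le hrF]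
      rwa [this] at hrest
    obtain ⟨F'', hF''le, hcan1, hcan2⟩ := ih (F - r)
      (fun a ha b hb => hhh a (by simp [ha]) b (by simp [hb]))
      (fun a ha c hc => hhc a (by simp [ha]) c hc) hrest'
    refine ⟨r + F'', ?_, ?_, ?_⟩
    · calc r + F'' ≤ r + (F - r) := by gcongr
        _ = F := add_tsub_cancel_of_le hrF
    · obtain ⟨bins, hlen, hsum, hbin⟩ := hcan1
      refine ⟨B :: bins, by simp [hlen], ?_, ?_⟩
      · rw [List.sum_cons, hsum, hBr, ← Multiset.cons_coe]
        simp only [Multiset.cons_add]
        congr 1
        abel
      · intro S hS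
        rw [List.mem_cons] at hS
        rcases hS with rfl | hS
        · exact hBsum
        · exact hbin S hS
    · have : F - (r + F'') = F - r - F'' := tsub_add_eq_tsub_tsub F r F''
      rw [this]; exact hcan2

/-- The reduction to the core. -/
theorem not_canPack_gadget (G t k : ℕ) (core : Multiset ℕ) (hs : List ℕ) (fillers : Multiset ℕ)
    (hhh : ∀ h ∈ hs, ∀ h' ∈ hs, G < h + h') (hhc : ∀ h ∈ hs, ∀ c ∈ core, G < h + c)
    (hft : ∀ f ∈ fillers, t ≤ f)
    (hfill : ¬ CanPack G hs.length ((hs : Multiset ℕ) + fillers))
    (hsens : ¬ CanPack G k (t ::ₘ core)) :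
    ¬ CanPack G (k + hs.length) (core + (hs : Multiset ℕ) + fillers) := by
  intro h
  obtain ⟨F', hF'le, hcan1, hcan2⟩ := h.split_huge core hs fillers hhh hhc
  by_cases hz : fillers - F' = 0
  · have : F' = fillers := le_antisymm hF'le (tsub_eq_zero_iff_le.mp hz)
    rw [this] at hcan1
    exact hfill hcan1
  · obtain ⟨f, hf⟩ := Multiset.exists_mem_of_ne_zero hz
    have hfm : f ∈ fillers := Multiset.mem_of_le (Multiset.sub_le_self _ _) hf
    have hle : f ::ₘ core ≤ core + (fillers - F') := by
      rw [← Multiset.singleton_add, add_comm]
      gcongr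
      exact Multiset.singleton_le.mpr hf
    exact hsens ((hcan2.sub hle).shrink (hft f hfm))

/-- Dropping the largest items: if `t` disjoint fitting triples exist in `big ++ small`, they
exist in `small`, provided `small` has at least `3 * t` entries. -/
theorem HasTriples.drop_big {G t : ℕ} (small : List ℕ) (hlen : 3 * t ≤ small.length) :
    ∀ (big : List ℕ), (big ++ small).Pairwise (· ≥ ·) →
      HasTriples G t ((big ++ small : List ℕ) : Multiset ℕ) →
      HasTriples G t (small : Multiset ℕ) := by
  intro big
  induction big with
  | nil => intro _ h; simpa using h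
  | cons x big ih =>
    intro hs h
    have hs' := List.pairwise_cons.mp hs
    have hmax : ∀ y ∈ ((x :: big ++ small : List ℕ) : Multiset ℕ), y ≤ x := by
      intro y hy
      have hy' : y ∈ x :: (big ++ small) := by simpa using hy
      rw [List.mem_cons] at hy'
      rcases hy' with rfl | hy'
      · exact le_rfl
      · exact hs'.1 y hy'
    have hcard : 3 * t < Multiset.card ((x :: big ++ small : List ℕ) : Multiset ℕ) := by
      rw [Multiset.coe_card]
      simp only [List.cons_append, List.length_cons, List.length_append]
      omega
    have h2 := h.erase_max x hmax hcard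
    apply ih hs'.2
    have : ((x :: big ++ small : List ℕ) : Multiset ℕ).erase x
        = ((big ++ small : List ℕ) : Multiset ℕ) := by
      rw [Multiset.coe_erase]
      simp
    rw [← this]
    exact h2

theorem HasTriples.mono {G t t' : ℕ} {M M' : Multiset ℕ} (h : HasTriples G t M) (ht : t' ≤ t)
    (hM : M ≤ M') : HasTriples G t' M' := by
  obtain ⟨T, hl, hT3, hsum⟩ := h
  refine ⟨T.take t', ?_, ?_, ?_⟩
  · rw [List.length_take]; omega
  · intro B hB
    exact hT3 B (List.mem_of_mem_take hB)
  · have hs : (T.take t').Sublist T := List.take_sublist t' T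
    exact le_trans (hs.sum_le_sum (fun a _ => Multiset.zero_le a)) (le_trans hsum hM)

/-- If a list in decreasing order contains `j` disjoint fitting triples, the search on its last
`3 * j` entries succeeds. -/
theorem perfect_of_hasTriples (G j : ℕ) (L : List ℕ) (hsort : L.Pairwise (· ≥ ·))
    (hlen : 3 * j ≤ L.length) (h : HasTriples G j (L : Multiset ℕ)) :
    perfect G j (L.drop (L.length - 3 * j)) = true := by
  have hsplit : L.take (L.length - 3 * j) ++ L.drop (L.length - 3 * j) = L :=
    List.take_append_drop _ _
  have hdroplen : (L.drop (L.length - 3 * j)).length = 3 * j := by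
    rw [List.length_drop]; omega
  have hT' : HasTriples G j ((L.drop (L.length - 3 * j) : List ℕ) : Multiset ℕ) := by
    apply HasTriples.drop_big (L.drop (L.length - 3 * j)) (by omega) (L.take (L.length - 3 * j))
    · rw [hsplit]; exact hsort
    · rw [hsplit]; exact h
  obtain ⟨T, hl, hT3, hsum⟩ := hT'
  have heq : T.sum = ((L.drop (L.length - 3 * j) : List ℕ) : Multiset ℕ) := by
    apply Multiset.eq_of_le_of_card_le hsum
    rw [card_list_sum T (fun S hS => (hT3 S hS).1), hl, Multiset.coe_card, hdroplen]
  exact perfect_complete G j _ (hsort.sublist (List.drop_sublist _ _)) ⟨T, hl, hT3, heq⟩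

/-- The check for the case that the extra item shares a bin with three core items `r`: the
remaining core items must not contain `j` disjoint fitting triples. -/
def specialOK (G t j : ℕ) (core : List ℕ) : Bool :=
  (core.sublistsLen 3).all fun r =>
    decide (G < r.sum + t) || !(perfect G j ((core.diff r).drop (core.length - 3 - 3 * j)))

/-- Sensitivity of a core in which every bin holds at most three items: the core (`2 * k + j + 1`
items, in decreasing order, each larger than a quarter of the capacity) together with one more
item of size `t` does not fit into `k` bins, provided that the core and the extra item do not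
contain `j + 2` disjoint fitting triples and that, after removing any three core items that fit
together with the extra item, the core does not contain `j` disjoint fitting triples. -/
theorem not_canPack_sensitive (G t j k : ℕ) (core : List ℕ)
    (hsort : (core ++ [t]).Pairwise (· ≥ ·))
    (hq : ∀ e ∈ core, G < 4 * e)
    (hlen : core.length = 2 * k + j + 1) (hjk : j + 2 ≤ k)
    (h1 : perfect G (j + 2) ((core ++ [t]).drop ((core ++ [t]).length - 3 * (j + 2))) = false)
    (h2 : specialOK G t j core = true) :
    ¬ CanPack G k (t ::ₘ (core : Multiset ℕ)) := by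
  intro h
  obtain ⟨k', rfl⟩ : ∃ k', k = k' + 1 := ⟨k - 1, by omega⟩
  have hcs : core.Pairwise (· ≥ ·) := hsort.sublist (List.sublist_append_left core [t])
  have hcoe : ((core ++ [t] : List ℕ) : Multiset ℕ) = t ::ₘ (core : Multiset ℕ) := by
    rw [← Multiset.singleton_add, ← Multiset.coe_singleton, Multiset.coe_add]
    exact Multiset.coe_eq_coe.mpr List.perm_append_comm
  obtain ⟨B, htB, hBle, hBsum, hrest⟩ := h.peel t (by simp)
  obtain ⟨r, hBr⟩ : ∃ r, B = t ::ₘ r := ⟨B.erase t, (Multiset.cons_erase htB).symm⟩
  have hrle : r ≤ (core : Multiset ℕ) := by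
    rw [hBr] at hBle
    exact (Multiset.cons_le_cons_iff t).mp hBle
  have hrest' : CanPack G k' ((core : Multiset ℕ) - r) := by
    have : t ::ₘ (core : Multiset ℕ) - B = (core : Multiset ℕ) - r := by
      rw [hBr, Multiset.sub_cons, Multiset.erase_cons_head]
    rwa [this] at hrest
  have hrsum : r.sum + t ≤ G := by
    rw [hBr, Multiset.sum_cons] at hBsum; omega
  have h4 : ∀ S : Multiset ℕ, S ≤ (core : Multiset ℕ) → 4 ≤ Multiset.card S → G < S.sum := by
    apply four_gt G
    · intro e he; exact le_of_lt (hq e (by simpa using he))
    · have : Multiset.filter (fun e => 4 * e = G) (core : Multiset ℕ) = 0 := by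
        rw [Multiset.filter_eq_nil]
        intro e he
        have := hq e (by simpa using he)
        omega
      rw [this]; simp
  have hr3 : Multiset.card r ≤ 3 := by
    by_contra hcon
    have := h4 r hrle (by omega)
    omega
  have hcard : Multiset.card ((core : Multiset ℕ) - r) = 2 * (k' + 1) + j + 1 - Multiset.card r := by
    rw [Multiset.card_sub hrle, Multiset.coe_card, hlen]
  have hrc : Multiset.card r ≤ 2 * (k' + 1) + j + 1 := by
    have := Multiset.card_le_card hrle
    rwa [Multiset.coe_card, hlen] at this
  have h4' : ∀ S : Multiset ℕ, S ≤ (core : Multiset ℕ) - r → 4 ≤ Multiset.card S → G < S.sum :=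
    fun S hS => h4 S (le_trans hS (Multiset.sub_le_self _ _))
  have hT := HasTriples.of_canPack hrest' h4' (j + 3 - Multiset.card r) (by rw [hcard]; omega)
  by_cases hr3' : Multiset.card r = 3
  · -- the extra item shares a bin with three core items
    rw [hr3'] at hT
    obtain ⟨l, rfl⟩ : ∃ l : List ℕ, r = (l : Multiset ℕ) := ⟨r.toList, (Multiset.coe_toList r).symm⟩
    obtain ⟨l', hperm, hsub⟩ := Multiset.coe_le.mp hrle
    have hl'len : l'.length = 3 := by
      rw [hperm.length_eq]; simpa using hr3'
    have hmem : l' ∈ core.sublistsLen 3 := List.mem_sublistsLen.mpr ⟨hsub, hl'len⟩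
    have hchk := List.all_eq_true.mp h2 l' hmem
    have hsum' : l'.sum = (l : Multiset ℕ).sum := by
      rw [Multiset.sum_coe]; exact hperm.sum_eq
    rw [Bool.or_eq_true] at hchk
    rcases hchk with hchk | hchk
    · have := of_decide_eq_true hchk
      omega
    · have hdiff : (core : Multiset ℕ) - (l : Multiset ℕ) = ((core.diff l' : List ℕ) : Multiset ℕ) := by
        rw [← Multiset.coe_sub]
        congr 1
        exact (Multiset.coe_eq_coe.mpr hperm).symm
      rw [hdiff] at hT
      have hdsort : (core.diff l').Pairwise (· ≥ ·) := hcs.sublist (List.diff_sublist _ _)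
      have hdlen : (core.diff l').length = core.length - 3 := by
        have := hcard
        rw [hdiff, Multiset.coe_card, hr3'] at this
        omega
      have hT2 : HasTriples G j ((core.diff l' : List ℕ) : Multiset ℕ) := by
        have : j + 3 - 3 = j := by omega
        rwa [this] at hT
      have hp := perfect_of_hasTriples G j (core.diff l') hdsort (by omega) hT2
      rw [hdlen] at hp
      rw [hp] at hchk
      simp at hchk
  · -- the extra item shares a bin with at most two core items
    have hT2 : HasTriples G (j + 2) (t ::ₘ (core : Multiset ℕ)) := by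
      by_cases hr2' : Multiset.card r = 2
      · rw [hr2'] at hT
        obtain ⟨T, hl, hT3, hsum⟩ := hT
        refine ⟨B :: T, by simp [hl], ?_, ?_⟩
        · intro S hS
          rw [List.mem_cons] at hS
          rcases hS with rfl | hS
          · refine ⟨?_, hBsum⟩
            rw [hBr, Multiset.card_cons, hr2']
          · exact hT3 S hS
        · rw [List.sum_cons, hBr, Multiset.cons_add]
          apply Multiset.cons_le_cons
          calc r + T.sum ≤ r + ((core : Multiset ℕ) - r) := by gcongr
            _ = (core : Multiset ℕ) := add_tsub_cancel_of_le hrle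
      · exact hT.mono (by omega)
          (le_trans (Multiset.sub_le_self _ _) (Multiset.le_cons_self _ _))
    rw [← hcoe] at hT2
    have hp := perfect_of_hasTriples G (j + 2) (core ++ [t]) hsort
      (by rw [List.length_append, hlen]; simp; omega) hT2
    rw [h1] at hp
    exact Bool.false_ne_true hp

/-- The certificate for an instance made of a sensitive core, huge items and fillers: no core
item fits beside a huge item, no two huge items fit together, the huge items and all the fillers
do not fit into as many bins as there are huge items, and the core together with one more item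
of size `t` (a lower bound for the fillers) does not fit into `k` bins. -/
theorem opt_ge_of_gadget (G : ℕ) (hG : 0 < G) (t k : ℕ) (core hs fillers : List ℕ)
    (st : List (ℕ × ℕ))
    (hsens : ¬ CanPack G k (t ::ₘ (core : Multiset ℕ)))
    (hle : ∀ e ∈ core ++ hs ++ fillers, e ≤ G)
    (hhh : ∀ h ∈ hs, ∀ h' ∈ hs, G < h + h') (hhc : ∀ h ∈ hs, ∀ c ∈ core, G < h + c)
    (hft : ∀ f ∈ fillers, t ≤ f)
    (hst : stMs st = ((hs ++ fillers : List ℕ) : Multiset ℕ))
    (hfill : noPack G hs.length st = true) :
    k + hs.length + 1 ≤ opt (scaled G (core ++ hs ++ fillers)) := by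
  apply opt_ge_of_not_canPack G hG _ hle (k + hs.length)
  have h := not_canPack_gadget G t k (core : Multiset ℕ) hs (fillers : Multiset ℕ) hhh
    (fun a ha c hc => hhc a ha c (by simpa using hc))
    (fun f hf => hft f (by simpa using hf))
    (by
      have : ((hs : List ℕ) : Multiset ℕ) + (fillers : Multiset ℕ)
          = ((hs ++ fillers : List ℕ) : Multiset ℕ) := by rw [Multiset.coe_add]
      rw [this, ← hst]; exact noPack_sound G hs.length st hfill) hsens
  have heq : ((core ++ hs ++ fillers : List ℕ) : Multiset ℕ)
      = (core : Multiset ℕ) + (hs : Multiset ℕ) + (fillers : Multiset ℕ) := by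
    rw [← Multiset.coe_add, ← Multiset.coe_add]
  rw [heq]; exact h

end Vale.Agent.Lib.P302
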