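import Vale.Agent.Lib.P302.LpBound
import Vale.Agent.Lib.P302.Gadget

/-!
# P302: an explicit 29-item instance with OPT - LP at least 65/54

Capacity 1482. A sensitive core of 20 items (every item above a quarter of the capacity, every
packing of the core into 7 bins leaves less than 190 free in each bin), three huge items and six
fillers of sizes 190 to 196: at most five fillers fit beside the huge items, so 11 bins are needed,
while the configuration LP has a solution of value 529/54.
-/

namespace Vale.Agent.Lib.P302.Inst29
open Vale.Agent.Lib.P302

/-- The capacity. -/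
def cap : ℕ := 1482
/-- The 20 core item sizes, in decreasing order. -/
def core : List ℕ := [675, 672, 668, 656, 630, 625, 517, 484, 482, 432, 432, 428, 426, 424, 412, 410, 406, 405, 403, 394]
/-- The sizes of the 3 huge items. -/
def huge : List ℕ := [1098, 1096, 1092]
/-- The six filler sizes. -/
def fillers : List ℕ := [196, 195, 194, 193, 192, 190]
/-- The whole instance. -/
def items : List ℕ := core ++ huge ++ fillers
/-- Configurations with their weights, in units of `1 / 54`. -/
def cfgs : List (List ℕ × ℕ) := [([394, 412, 672], 9), ([394, 412, 675], 12), ([394, 432, 656], 33), ([403, 406, 672], 18), ([403, 410, 668], 36), ([405, 405, 672], 27), ([406, 406, 668], 18), ([410, 412, 656], 18), ([412, 412, 656], 3), ([412, 432, 630], 9), ([424, 428, 630], 18), ([424, 432, 625], 36), ([426, 426, 630], 27), ([428, 428, 625], 18), ([432, 482, 517], 6), ([432, 517, 517], 24), ([482, 482, 484], 14), ([482, 484, 484], 20), ([675, 675], 21), ([1098, 190, 194], 27), ([1098, 192, 192], 27), ([1096, 190, 196], 27), ([1096, 193, 193], 27), ([1092, 194, 196], 27), ([1092, 195, 195], 27)]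

theorem sens : ¬ CanPack cap 7 (190 ::ₘ (core : Multiset ℕ)) :=
  not_canPack_sensitive cap 190 5 7 core (by decide +kernel) (by decide +kernel) (by decide)
    (by decide) (by decide +kernel) (by decide +kernel)

theorem optBound : 11 ≤ opt (scaled cap items) :=
  opt_ge_of_gadget cap (by decide) 190 7 core huge fillers [(1098, 1), (1096, 1), (1092, 1), (196, 1), (195, 1), (194, 1), (193, 1), (192, 1), (190, 1)] sens
    (by decide +kernel) (by decide +kernel) (by decide +kernel) (by decide +kernel)
    (by decide) (by decide +kernel)

theorem lpBound : lp (scaled cap items) ≤ 529 / 54 := by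
  have h := (lp_le_of_cover cap (by decide) items 54 (by decide) cfgs
    (by decide +kernel) (by decide +kernel)).2
  have h2 : ((cfgs.map fun c => c.2).sum : ℝ) / ((54 : ℕ) : ℝ) = 529 / 54 := by
    norm_num [cfgs]
  rw [h2] at h
  exact h

theorem gapBound : (65 : ℝ) / 54 ≤ (opt (scaled cap items) : ℝ) - lp (scaled cap items) := by
  have h1 : (11 : ℝ) ≤ (opt (scaled cap items) : ℝ) := by exact_mod_cast optBound
  have h2 := lpBound
  linarith

end Vale.Agent.Lib.P302.Inst29
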