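import Vale.Agent.Lib.P302.LpBound
import Vale.Agent.Lib.P302.Gadget
import Vale.Agent.Lib.P302.Core38

/-!
# P302: an explicit 47-item instance with OPT - LP at least 59/48

Capacity 7500.  A sensitive core of 38 items (every item above a quarter of the capacity;
the core together with one more item of size 997 does not fit into 13 bins), three huge items and
six fillers of sizes 997 to 1003: at most five fillers fit beside the huge items, so 17 bins
are needed, while the configuration LP has a solution of value 757/48.
-/

namespace Vale.Agent.Lib.P302.Inst47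
open Vale.Agent.Lib.P302

/-- The capacity. -/
def cap : ℕ := 7500
/-- The 38 core item sizes, in decreasing order. -/
def core : List ℕ := [3490, 3401, 3397, 3389, 3375, 3277, 3273, 3265, 3251, 3029, 3025, 3017, 2503, 2500, 2498, 2243, 2243, 2241, 2239, 2237, 2235, 2231, 2119, 2119, 2117, 2115, 2113, 2111, 2107, 2057, 2057, 2055, 2053, 2051, 2049, 2045, 2006, 2005]
/-- The sizes of the 3 huge items. -/
def huge : List ℕ := [5502, 5500, 5496]
/-- The six filler sizes. -/
def fillers : List ℕ := [1003, 1002, 1001, 1000, 999, 997]
/-- The whole instance. -/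
def items : List ℕ := core ++ huge ++ fillers
/-- Configurations with their weights, in units of `1 / 48`. -/
def cfgs : List (List ℕ × ℕ) := [([3401, 2053, 2045], 24), ([3401, 2049, 2049], 24), ([3397, 2057, 2045], 24), ([3397, 2051, 2051], 24), ([3389, 2057, 2053], 24), ([3389, 2055, 2055], 24), ([3277, 2115, 2107], 24), ([3277, 2111, 2111], 24), ([3273, 2119, 2107], 24), ([3273, 2113, 2113], 24), ([3265, 2119, 2115], 24), ([3265, 2117, 2117], 24), ([3029, 2239, 2231], 24), ([3029, 2235, 2235], 24), ([3025, 2243, 2231], 24), ([3025, 2237, 2237], 24), ([3017, 2243, 2239], 24), ([3017, 2241, 2241], 24), ([3375, 2057, 2057], 24), ([3375, 2119, 2006], 12), ([3375, 2119, 2005], 12), ([3251, 2119, 2119], 12), ([3251, 2243, 2006], 36), ([3490, 2005, 2005], 18), ([2503, 2498, 2498], 24), ([2500, 2500, 2500], 16), ([2503, 2503, 2243], 12), ([3490, 3490], 15), ([5502, 1001, 997], 24), ([5502, 999, 999], 24), ([5500, 1003, 997], 24), ([5500, 1000, 1000], 24), ([5496, 1003, 1001], 24), ([5496, 1002, 1002], 24)]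

theorem sens : ¬ CanPack cap 13 (997 ::ₘ (core : Multiset ℕ)) := Core38.sens

theorem optBound : 17 ≤ opt (scaled cap items) :=
  opt_ge_of_gadget cap (by decide) 997 13 core huge fillers [(5502, 1), (5500, 1), (5496, 1), (1003, 1), (1002, 1), (1001, 1), (1000, 1), (999, 1), (997, 1)] sens
    (by decide +kernel) (by decide +kernel) (by decide +kernel) (by decide +kernel)
    (by decide) (by decide +kernel)

theorem lpBound : lp (scaled cap items) ≤ 757 / 48 := by
  have h := (lp_le_of_cover cap (by decide) items 48 (by decide) cfgs
    (by decide +kernel) (by decide +kernel)).2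
  have h2 : ((cfgs.map fun c => c.2).sum : ℝ) / ((48 : ℕ) : ℝ) = 757 / 48 := by
    norm_num [cfgs]
  rw [h2] at h
  exact h

theorem gapBound : (59 : ℝ) / 48 ≤ (opt (scaled cap items) : ℝ) - lp (scaled cap items) := by
  have h1 : (17 : ℝ) ≤ (opt (scaled cap items) : ℝ) := by exact_mod_cast optBound
  have h2 := lpBound
  linarith

end Vale.Agent.Lib.P302.Inst47
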