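import Vale.Agent.Lib.P302.LpBound
import Vale.Agent.Lib.P302.Gadget
import Vale.Agent.Lib.P302.Core59

/-!
# P302: an explicit 68-item instance with OPT - LP at least 443/360

Capacity 39798.  A sensitive core of 59 items (every item above a quarter of the capacity;
the core together with one more item of size 5422 does not fit into 20 bins), three huge items and
six fillers of sizes 5422 to 5428: at most five fillers fit beside the huge items, so 24 bins
are needed, while the configuration LP has a solution of value 8197/360.
-/

namespace Vale.Agent.Lib.P302.Inst68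
open Vale.Agent.Lib.P302

/-- The capacity. -/
def cap : ℕ := 39798
/-- The 59 core item sizes, in decreasing order. -/
def core : List ℕ := [18061, 18058, 18050, 18030, 18028, 18022, 17974, 17972, 17966, 17862, 17860, 17854, 17638, 17636, 17630, 17190, 17188, 14474, 14472, 14468, 12666, 12665, 12664, 12663, 12662, 12660, 11307, 11307, 11305, 11304, 11303, 11083, 11083, 11081, 11080, 11079, 10971, 10971, 10969, 10968, 10967, 10915, 10915, 10913, 10912, 10911, 10887, 10887, 10885, 10884, 10883, 10874, 10873, 10870, 10868, 10866, 10860, 10860, 10860]
/-- The sizes of the 3 huge items. -/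
def huge : List ℕ := [28950, 28948, 28944]
/-- The six filler sizes. -/
def fillers : List ℕ := [5428, 5427, 5426, 5425, 5424, 5422]
/-- The whole instance. -/
def items : List ℕ := core ++ huge ++ fillers
/-- Configurations with their weights, in units of `1 / 360`. -/
def cfgs : List (List ℕ × ℕ) := [([28950, 5422, 5426], 180), ([28948, 5425, 5425], 180), ([28944, 5427, 5427], 180), ([18058, 10868, 10868], 180), ([18058, 10870, 10870], 180), ([18030, 10884, 10884], 108), ([18050, 10873, 10873], 180), ([18028, 10884, 10884], 72), ([18022, 10915, 10860], 168), ([18061, 10866, 10866], 180), ([17972, 10913, 10913], 120), ([17966, 10971, 10860], 264), ([17862, 10969, 10967], 120), ([14474, 12662, 12662], 138), ([14474, 12664, 12660], 138), ([17638, 11081, 11079], 120), ([18061, 18061], 90), ([17862, 10971, 10915], 60), ([17190, 11305, 11303], 120), ([14468, 12665, 12665], 96), ([14472, 12664, 12662], 84), ([14474, 12665, 11307], 84), ([14468, 12663, 12663], 126), ([14472, 12666, 12660], 222), ([14468, 12666, 12664], 138), ([12665, 12665, 12665], 28), ([17190, 11307, 11083], 60), ([17854, 11083, 10860], 312), ([18050,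 10874, 10874], 138), ([17630, 11307, 10860], 336), ([17188, 11305, 11305], 120), ([17190, 11304, 11304], 180), ([17188, 11307, 11303], 240), ([17630, 11083, 11083], 24), ([17636, 11081, 11081], 120), ([17638, 11080, 11080], 180), ([17636, 11083, 11079], 240), ([17854, 10971, 10971], 48), ([17860, 10969, 10969], 120), ([17862, 10968, 10968], 180), ([17860, 10971, 10967], 240), ([17972, 10915, 10911], 240), ([18050, 18050], 21), ([17974, 10912, 10912], 180), ([17974, 10913, 10911], 120), ([18028, 10887, 10883], 192), ([18028, 10885, 10885], 96), ([17966, 10915, 10915], 96), ([18030, 10885, 10883], 168), ([17974, 10915, 10887], 60), ([18030, 10887, 10874], 84), ([18022, 10887, 10887], 192), ([14472, 12663, 12663], 54), ([17638, 11083, 10971], 60), ([28944, 5426, 5428], 180), ([28950, 5424, 5424], 180), ([28948, 5422, 5428], 180)]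

theorem sens : ¬ CanPack cap 20 (5422 ::ₘ (core : Multiset ℕ)) := Core59.sens

theorem optBound : 24 ≤ opt (scaled cap items) :=
  opt_ge_of_gadget cap (by decide) 5422 20 core huge fillers [(28950, 1), (28948, 1), (28944, 1), (5428, 1), (5427, 1), (5426, 1), (5425, 1), (5424, 1), (5422, 1)] sens
    (by decide +kernel) (by decide +kernel) (by decide +kernel) (by decide +kernel)
    (by decide) (by decide +kernel)

theorem lpBound : lp (scaled cap items) ≤ 8197 / 360 := by
  have h := (lp_le_of_cover cap (by decide) items 360 (by decide) cfgs
    (by decide +kernel) (by decide +kernel)).2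
  have h2 : ((cfgs.map fun c => c.2).sum : ℝ) / ((360 : ℕ) : ℝ) = 8197 / 360 := by
    norm_num [cfgs]
  rw [h2] at h
  exact h

theorem gapBound : (443 : ℝ) / 360 ≤ (opt (scaled cap items) : ℝ) - lp (scaled cap items) := by
  have h1 : (24 : ℝ) ≤ (opt (scaled cap items) : ℝ) := by exact_mod_cast optBound
  have h2 := lpBound
  linarith

end Vale.Agent.Lib.P302.Inst68
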