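import Vale.Agent.Lib.P302.LargeDefs

/-!
# P302: a packing with at most two items per bin and a matching threshold certificate
-/

namespace Vale.Agent.Lib.P302

private theorem largeCore_yth_nonneg (θ σ : ℚ) : 0 ≤ yth θ σ := by
  unfold yth
  split_ifs <;> norm_num

private theorem largeCore_yth_half {θ σ : ℚ} (h : ¬ σ < θ) : 1 / 2 ≤ yth θ σ := by
  unfold yth
  rw [if_neg h]
  split_ifs <;> norm_num

private theorem largeCore_yth_one {θ σ : ℚ} (h : ¬ σ < θ) (h' : 1 - θ < σ) : yth θ σ = 1 := by
  unfold yth
  rw [if_neg h, if_pos h']

/-- The greedy pairing: the largest remaining item is packed with the smallest one when they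
fit together and alone otherwise. Either at most half of the items (rounded up) many bins are
used, or a threshold certificate exists. -/
private theorem largeCore_J (n : ℕ) (w : Fin n → ℚ) (hw : ∀ i, 0 < w i ∧ w i ≤ 1)
    (s : Finset (Fin n)) :
    ∃ (K : ℕ) (g : Fin n → ℕ), (∀ i ∈ s, g i < K) ∧
      (∀ k, k < K → ∑ i ∈ s, (if g i = k then w i else 0) ≤ 1) ∧
      (2 * K ≤ s.card + 1 ∨
        ∃ θ : ℚ, ∃ L ∈ s, ¬ (w L < θ) ∧ 1 - θ < w L ∧
          (K : ℚ) - 1 / 2 ≤ ∑ i ∈ s, yth θ (w i)) := by
  induction s using Finset.strongInduction with
  | H s ih =>
    rcases s.eq_empty_or_nonempty with hs | hs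
    · subst hs
      exact ⟨0, fun _ => 0, by simp, by simp, Or.inl (by simp)⟩
    · obtain ⟨b, hb, hbmax⟩ := Finset.exists_max_image s w hs
      rcases (s.erase b).eq_empty_or_nonempty with hs1 | hs1
      · -- a single item
        refine ⟨1, fun _ => 0, fun _ _ => Nat.zero_lt_one, ?_, Or.inl ?_⟩
        · intro k hk
          rw [← Finset.add_sum_erase s _ hb, hs1, Finset.sum_empty, add_zero]
          split_ifs
          · exact (hw b).2
          · exact zero_le_one
        · have hc := Finset.card_erase_add_one hb
          rw [hs1, Finset.card_empty] at hc
          omega
      · obtain ⟨m, hm, hmmin⟩ := Finset.exists_min_image (s.erase b) w hs1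
        have hmb : m ≠ b := Finset.ne_of_mem_erase hm
        have hms : m ∈ s := Finset.mem_of_mem_erase hm
        by_cases hAB : 1 < w b + w m
        · -- the largest item does not fit with the smallest one: it gets its own bin
          obtain ⟨K, g, h1, h2, h3⟩ := ih (s.erase b) (Finset.erase_ssubset hb)
          have hcard := Finset.card_erase_add_one hb
          refine ⟨K + 1, Function.update g b K, ?_, ?_, ?_⟩
          · intro i hi
            by_cases hib : i = b
            · rw [hib, Function.update_self]
              exact Nat.lt_succ_self K
            · rw [Function.update_of_ne hib]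
              exact Nat.lt_succ_of_lt (h1 i (Finset.mem_erase.mpr ⟨hib, hi⟩))
          · intro k hk
            rw [← Finset.add_sum_erase s _ hb, Function.update_self]
            by_cases hkK : k = K
            · rw [if_pos hkK.symm]
              have hz : ∑ i ∈ s.erase b, (if Function.update g b K i = k then w i else 0) = 0 := by
                apply Finset.sum_eq_zero
                intro i hi
                have hib := Finset.ne_of_mem_erase hi
                rw [Function.update_of_ne hib, if_neg]
                have := h1 i hi
                omega
              rw [hz, add_zero]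
              exact (hw b).2
            · rw [if_neg (fun h => hkK h.symm), zero_add]
              have hk' : k < K := by omega
              have hz : ∑ i ∈ s.erase b, (if Function.update g b K i = k then w i else 0)
                  = ∑ i ∈ s.erase b, (if g i = k then w i else 0) := by
                apply Finset.sum_congr rfl
                intro i hi
                rw [Function.update_of_ne (Finset.ne_of_mem_erase hi)]
              rw [hz]
              exact h2 k hk'
          · right
            rcases h3 with h3 | ⟨θ, L, hL, hL1, hL2, hL3⟩
            · refine ⟨w m, b, hb, not_lt.mpr (hbmax m hms), by linarith, ?_⟩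
              rw [← Finset.add_sum_erase s _ hb,
                largeCore_yth_one (not_lt.mpr (hbmax m hms)) (by linarith)]
              have hsum : ((s.erase b).card : ℚ) * (1 / 2)
                  ≤ ∑ i ∈ s.erase b, yth (w m) (w i) := by
                have h4 := Finset.card_nsmul_le_sum (s.erase b) (fun i => yth (w m) (w i)) (1 / 2)
                  (fun i hi => largeCore_yth_half (not_lt.mpr (hmmin i hi)))
                rwa [nsmul_eq_mul] at h4
              have hc : (2 * K : ℚ) ≤ ((s.erase b).card : ℚ) + 1 := by exact_mod_cast h3
              push_cast
              linarith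
            · have hLs : L ∈ s := Finset.mem_of_mem_erase hL
              refine ⟨θ, L, hLs, hL1, hL2, ?_⟩
              have hLb : w L ≤ w b := hbmax L hLs
              rw [← Finset.add_sum_erase s _ hb,
                largeCore_yth_one (fun h => hL1 (lt_of_le_of_lt hLb h)) (lt_of_lt_of_le hL2 hLb)]
              push_cast
              linarith
        · -- the largest and the smallest item share a bin
          have hAB' : w b + w m ≤ 1 := not_lt.mp hAB
          have hss : (s.erase b).erase m ⊂ s :=
            (Finset.erase_ssubset hm).trans (Finset.erase_ssubset hb)
          obtain ⟨K, g, h1, h2, h3⟩ := ih ((s.erase b).erase m) hss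
          have hcard1 := Finset.card_erase_add_one hb
          have hcard2 := Finset.card_erase_add_one hm
          have hbm : b ≠ m := fun h => hmb h.symm
          refine ⟨K + 1, Function.update (Function.update g b K) m K, ?_, ?_, ?_⟩
          · intro i hi
            by_cases him : i = m
            · rw [him, Function.update_self]
              exact Nat.lt_succ_self K
            · rw [Function.update_of_ne him]
              by_cases hib : i = b
              · rw [hib, Function.update_self]
                exact Nat.lt_succ_self K
              · rw [Function.update_of_ne hib]
                exact Nat.lt_succ_of_lt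
                  (h1 i (Finset.mem_erase.mpr ⟨him, Finset.mem_erase.mpr ⟨hib, hi⟩⟩))
          · intro k hk
            rw [← Finset.add_sum_erase s _ hb, ← Finset.add_sum_erase (s.erase b) _ hm,
              Function.update_self, Function.update_of_ne hbm, Function.update_self]
            have hrest : ∀ i ∈ (s.erase b).erase m,
                Function.update (Function.update g b K) m K i = g i := by
              intro i hi
              have him := Finset.ne_of_mem_erase hi
              have hib := Finset.ne_of_mem_erase (Finset.mem_of_mem_erase hi)
              rw [Function.update_of_ne him, Function.update_of_ne hib]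
            by_cases hkK : k = K
            · rw [if_pos hkK.symm, if_pos hkK.symm]
              have hz : ∑ i ∈ (s.erase b).erase m,
                  (if Function.update (Function.update g b K) m K i = k then w i else 0) = 0 := by
                apply Finset.sum_eq_zero
                intro i hi
                rw [hrest i hi, if_neg]
                have := h1 i hi
                omega
              rw [hz]
              linarith
            · rw [if_neg (fun h => hkK h.symm), if_neg (fun h => hkK h.symm)]
              have hk' : k < K := by omega
              have hz : ∑ i ∈ (s.erase b).erase m,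
                  (if Function.update (Function.update g b K) m K i = k then w i else 0)
                  = ∑ i ∈ (s.erase b).erase m, (if g i = k then w i else 0) := by
                apply Finset.sum_congr rfl
                intro i hi
                rw [hrest i hi]
              rw [hz]
              have h5 := h2 k hk'
              linarith
          · rcases h3 with h3 | ⟨θ, L, hL, hL1, hL2, hL3⟩
            · left
              omega
            · right
              have hLs : L ∈ s := Finset.mem_of_mem_erase (Finset.mem_of_mem_erase hL)
              refine ⟨θ, L, hLs, hL1, hL2, ?_⟩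
              have hLb : w L ≤ w b := hbmax L hLs
              rw [← Finset.add_sum_erase s _ hb, ← Finset.add_sum_erase (s.erase b) _ hm,
                largeCore_yth_one (fun h => hL1 (lt_of_le_of_lt hLb h)) (lt_of_lt_of_le hL2 hLb)]
              have h6 := largeCore_yth_nonneg θ (w m)
              push_cast
              linarith

/-- For sizes in `(0,1]` there are a packing into `K` bins and a threshold `θ` with
`K - 1/2 ≤ ∑ i, yth θ (w i)`. -/
theorem core_fin (n : ℕ) (w : Fin n → ℚ) (hw : ∀ i, 0 < w i ∧ w i ≤ 1) :
    ∃ (K : ℕ) (f : Fin n → Fin K) (θ : ℚ),
      (∀ b : Fin K, (∑ i : Fin n, if f i = b then w i else 0) ≤ 1) ∧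
      (K : ℚ) - 1 / 2 ≤ ∑ i : Fin n, yth θ (w i) := by
  obtain ⟨K, g, h1, h2, h3⟩ := largeCore_J n w hw Finset.univ
  have hbin : ∀ b : Fin K, (∑ i : Fin n,
      if (⟨g i, h1 i (Finset.mem_univ i)⟩ : Fin K) = b then w i else 0) ≤ 1 := by
    intro b
    refine le_trans (le_of_eq ?_) (h2 b.val b.isLt)
    apply Finset.sum_congr rfl
    intro i _
    simp only [Fin.ext_iff]
  rcases h3 with h3 | ⟨θ, L, _, _, _, hL3⟩
  · refine ⟨K, fun i => ⟨g i, h1 i (Finset.mem_univ i)⟩, 0, hbin, ?_⟩
    have hy : ∀ i : Fin n, yth 0 (w i) = 1 / 2 := by
      intro i
      unfold yth
      rw [if_neg (not_lt.mpr (hw i).1.le), if_neg (by have := (hw i).2; linarith)]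
    simp only [hy, Finset.sum_const, Finset.card_univ, Fintype.card_fin, nsmul_eq_mul]
    rw [Finset.card_univ, Fintype.card_fin] at h3
    have hc : (2 * K : ℚ) ≤ (n : ℚ) + 1 := by exact_mod_cast h3
    linarith
  · exact ⟨K, fun i => ⟨g i, h1 i (Finset.mem_univ i)⟩, θ, hbin, hL3⟩

end Vale.Agent.Lib.P302
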