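import Vale.Agent.Lib.P302.Defs

/-!
# P302: the threshold dual weights used for instances with all sizes above one third
-/

namespace Vale.Agent.Lib.P302

/-- The threshold weight: sizes below `θ` get weight `0`, sizes above `1 - θ` get weight `1`,
all other sizes get weight `1/2`. -/
def yth (θ σ : ℚ) : ℚ := if σ < θ then 0 else if 1 - θ < σ then 1 else 1 / 2

end Vale.Agent.Lib.P302
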