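import Vale.Agent.Lib.P302.LargeDefs

/-!
# P302: weak duality for the threshold weights when all sizes exceed one third
-/

namespace Vale.Agent.Lib.P302

private lemma largeDual_yth_nonneg (θ σ : ℚ) : 0 ≤ yth θ σ := by
  unfold yth
  split_ifs <;> norm_num

/-- Dual feasibility: the threshold weights of a configuration of large items total at most
`1`. -/
private lemma largeDual_config (a : List ℚ) (ha : ∀ s ∈ a, 1 / 3 < s ∧ s ≤ 1) (θ : ℚ)
    (c : ℚ →₀ ℕ) (hc : IsConfig a c) :
    (∑ s ∈ c.support, yth θ s * (c s : ℚ)) ≤ 1 := by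
  obtain ⟨hsupp, hsum⟩ := hc
  have hsum' : ∑ s ∈ c.support, s * (c s : ℚ) ≤ 1 := hsum
  have hpos : ∀ s ∈ c.support, (1 : ℚ) ≤ (c s : ℚ) := by
    intro s hs
    have h1 : c s ≠ 0 := Finsupp.mem_support_iff.mp hs
    exact_mod_cast Nat.one_le_iff_ne_zero.mpr h1
  have hs3 : ∀ s ∈ c.support, 1 / 3 < s := fun s hs => (ha s (hsupp s hs)).1
  have hterm : ∀ s ∈ c.support, 0 ≤ s * (c s : ℚ) := fun s hs =>
    mul_nonneg (by linarith [hs3 s hs]) (by linarith [hpos s hs])
  by_cases hex : ∃ σ ∈ c.support, yth θ σ = 1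
  · obtain ⟨σ, hσ, hyσ⟩ := hex
    have hσ1 : ¬ σ < θ ∧ 1 - θ < σ := by
      unfold yth at hyσ
      split_ifs at hyσ with h1 h2
      · norm_num at hyσ
      · exact ⟨h1, h2⟩
      · norm_num at hyσ
    have hσle : σ * (c σ : ℚ) ≤ 1 :=
      le_trans (Finset.single_le_sum (f := fun s => s * (c s : ℚ)) hterm hσ) hsum'
    have hσ3 := hs3 σ hσ
    have hcσ : (c σ : ℚ) = 1 := by
      by_contra hne
      have h3 : 2 ≤ c σ := by
        have h4 := Nat.one_le_iff_ne_zero.mpr (Finsupp.mem_support_iff.mp hσ)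
        have h5 : c σ ≠ 1 := fun h => hne (by rw [h]; norm_num)
        omega
      have h2 : (2 : ℚ) ≤ (c σ : ℚ) := by exact_mod_cast h3
      have h6 : σ * 2 ≤ σ * (c σ : ℚ) := mul_le_mul_of_nonneg_left h2 (by linarith)
      have h7 : σ < θ := by linarith [hσ1.2]
      exact hσ1.1 h7
    have hothers : ∀ τ ∈ c.support, τ ≠ σ → yth θ τ * (c τ : ℚ) = 0 := by
      intro τ hτ hne
      have hsub : ({σ, τ} : Finset ℚ) ⊆ c.support := by
        intro s hs
        rcases Finset.mem_insert.mp hs with h | h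
        · rw [h]; exact hσ
        · rw [Finset.mem_singleton.mp h]; exact hτ
      have h2 : ∑ s ∈ ({σ, τ} : Finset ℚ), s * (c s : ℚ) ≤ ∑ s ∈ c.support, s * (c s : ℚ) :=
        Finset.sum_le_sum_of_subset_of_nonneg hsub (fun s hs _ => hterm s hs)
      rw [Finset.sum_pair (Ne.symm hne)] at h2
      have h3 : τ * 1 ≤ τ * (c τ : ℚ) :=
        mul_le_mul_of_nonneg_left (hpos τ hτ) (by linarith [hs3 τ hτ])
      rw [hcσ] at h2
      have h4 : τ < θ := by linarith [hσ1.2]
      unfold yth
      rw [if_pos h4, zero_mul]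
    rw [Finset.sum_eq_single_of_mem σ hσ hothers, hyσ, hcσ]
    norm_num
  · push Not at hex
    have hhalf : ∀ s ∈ c.support, yth θ s ≤ 1 / 2 := by
      intro s hs
      have h1 := hex s hs
      unfold yth at h1 ⊢
      split_ifs at h1 ⊢ with h2 h3
      · norm_num
      · exact absurd rfl h1
      · exact le_rfl
    by_cases hne : c.support.Nonempty
    · have hlt : ∑ s ∈ c.support, (1 / 3 : ℚ) * (c s : ℚ) < ∑ s ∈ c.support, s * (c s : ℚ) :=
        Finset.sum_lt_sum_of_nonempty hne (fun s hs =>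
          mul_lt_mul_of_pos_right (hs3 s hs) (by linarith [hpos s hs]))
      rw [← Finset.mul_sum] at hlt
      have hM : (∑ s ∈ c.support, (c s : ℚ)) < 3 := by linarith
      have hM2 : (∑ s ∈ c.support, (c s : ℚ)) ≤ 2 := by
        have h1 : ((∑ s ∈ c.support, c s : ℕ) : ℚ) < 3 := by
          push_cast
          exact hM
        have h2 : (∑ s ∈ c.support, c s) < 3 := by exact_mod_cast h1
        have h3 : (∑ s ∈ c.support, c s) ≤ 2 := by omega
        have h4 : ((∑ s ∈ c.support, c s : ℕ) : ℚ) ≤ 2 := by exact_mod_cast h3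
        push_cast at h4
        exact h4
      calc ∑ s ∈ c.support, yth θ s * (c s : ℚ)
          ≤ ∑ s ∈ c.support, (1 / 2 : ℚ) * (c s : ℚ) :=
            Finset.sum_le_sum (fun s hs =>
              mul_le_mul_of_nonneg_right (hhalf s hs) (by linarith [hpos s hs]))
        _ = (1 / 2 : ℚ) * ∑ s ∈ c.support, (c s : ℚ) := by rw [Finset.mul_sum]
        _ ≤ 1 := by linarith
    · rw [Finset.not_nonempty_iff_eq_empty.mp hne, Finset.sum_empty]
      norm_num

/-- If all sizes of `a` exceed `1/3`, the threshold weights are a feasible dual solution of the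
configuration LP, so their total is at most the value of every feasible fractional solution. -/
theorem dual_bound (a : List ℚ) (ha : ∀ s ∈ a, 1 / 3 < s ∧ s ≤ 1) (θ : ℚ)
    (z : (ℚ →₀ ℕ) →₀ ℝ) (hz : IsFractional a z) :
    (((∑ i : Fin a.length, yth θ (a.get i) : ℚ)) : ℝ) ≤ z.sum fun _ w => w := by
  classical
  obtain ⟨hz0, hzc, hcov⟩ := hz
  -- counting the items by their sizes
  have hcount : (∑ i : Fin a.length, yth θ (a.get i))
      = ∑ s ∈ a.toFinset, (a.count s : ℚ) * yth θ s := by
    simp only [List.get_eq_getElem]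
    rw [Fin.sum_univ_fun_getElem, Finset.sum_list_map_count]
    apply Finset.sum_congr rfl
    intro s _
    rw [nsmul_eq_mul]
  rw [hcount]
  push_cast
  -- the value of the sum of a configuration, in real numbers
  have hconf : ∀ c ∈ z.support, ∑ s ∈ a.toFinset, (yth θ s : ℝ) * (c s : ℝ) ≤ 1 := by
    intro c hc
    have h1 := largeDual_config a ha θ c (hzc c hc)
    have hsub : c.support ⊆ a.toFinset := fun s hs => List.mem_toFinset.mpr ((hzc c hc).1 s hs)
    have h2 : ∑ s ∈ a.toFinset, (yth θ s : ℝ) * (c s : ℝ)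
        = ∑ s ∈ c.support, (yth θ s : ℝ) * (c s : ℝ) := by
      symm
      apply Finset.sum_subset hsub
      intro s _ hs
      rw [Finsupp.notMem_support_iff.mp hs]
      simp
    rw [h2]
    have h3 : ((∑ s ∈ c.support, yth θ s * (c s : ℚ) : ℚ) : ℝ) ≤ 1 := by exact_mod_cast h1
    push_cast at h3
    exact h3
  calc ∑ s ∈ a.toFinset, (a.count s : ℝ) * (yth θ s : ℝ)
      ≤ ∑ s ∈ a.toFinset, (∑ c ∈ z.support, (c s : ℝ) * z c) * (yth θ s : ℝ) := by
        apply Finset.sum_le_sum
        intro s hs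
        apply mul_le_mul_of_nonneg_right (hcov s (List.mem_toFinset.mp hs))
        exact_mod_cast largeDual_yth_nonneg θ s
    _ = ∑ c ∈ z.support, (∑ s ∈ a.toFinset, (yth θ s : ℝ) * (c s : ℝ)) * z c := by
        simp only [Finset.sum_mul]
        rw [Finset.sum_comm]
        apply Finset.sum_congr rfl
        intro c _
        apply Finset.sum_congr rfl
        intro s _
        ring
    _ ≤ ∑ c ∈ z.support, 1 * z c :=
        Finset.sum_le_sum (fun c hc => mul_le_mul_of_nonneg_right (hconf c hc) (hz0 c))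
    _ = z.sum fun _ w => w := by
        simp only [one_mul]
        rfl

end Vale.Agent.Lib.P302
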