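import Vale.Agent.Lib.P302.LargeDefs

/-!
# P302: every packing gives a feasible point of the configuration LP of the same value
-/

namespace Vale.Agent.Lib.P302

/-- The sum of an additive expression over a finite sum of single-point functions. -/
private lemma largeFrac_sum_singles {κ α M N : Type*} [AddCommMonoid M] [AddCommMonoid N]
    (S : Finset κ) (p : κ → α) (q : κ → M) (g : α → M → N) (h0 : ∀ c, g c 0 = 0)
    (hadd : ∀ c w₁ w₂, g c (w₁ + w₂) = g c w₁ + g c w₂) :
    (∑ b ∈ S, Finsupp.single (p b) (q b)).sum g = ∑ b ∈ S, g (p b) (q b) := by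
  rw [← Finsupp.sum_finsetSum_index h0 hadd]
  exact Finset.sum_congr rfl (fun b _ => Finsupp.sum_single_index (h0 _))

/-- The number of occurrences of `s` in a list as a sum over the positions. -/
private lemma largeFrac_count (s : ℚ) (l : List ℚ) :
    (∑ i : Fin l.length, if l.get i = s then 1 else 0) = l.count s := by
  induction l with
  | nil => simp
  | cons x l ih =>
    have h1 : (∑ i : Fin (x :: l).length, if (x :: l).get i = s then 1 else 0)
        = (if x = s then 1 else 0) + ∑ i : Fin l.length, if l.get i = s then 1 else 0 :=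
      Fin.sum_univ_succ (fun i : Fin (l.length + 1) => if (x :: l).get i = s then 1 else 0)
    rw [h1, ih, List.count_cons]
    by_cases hx : x = s
    · simp [hx, add_comm]
    · simp [hx]

/-- A packing into `k` bins yields a feasible fractional solution of value `k`. -/
theorem exists_fractional_of_packing (a : List ℚ) (k : ℕ) (f : Fin a.length → Fin k)
    (hf : IsPacking a k f) :
    ∃ z : (ℚ →₀ ℕ) →₀ ℝ, IsFractional a z ∧ (z.sum fun _ w => w) = (k : ℝ) := by
  classical
  set cfg : Fin k → (ℚ →₀ ℕ) := fun b =>
    ∑ i ∈ Finset.univ.filter (fun i => f i = b), Finsupp.single (a.get i) 1 with hcfg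
  set z : (ℚ →₀ ℕ) →₀ ℝ := ∑ b : Fin k, Finsupp.single (cfg b) (1 : ℝ) with hz
  have hcfg_apply : ∀ b s, cfg b s
      = ∑ i ∈ Finset.univ.filter (fun i => f i = b), if a.get i = s then 1 else 0 := by
    intro b s
    rw [hcfg]
    simp only [Finsupp.finsetSum_apply, Finsupp.single_apply]
  have hz_apply : ∀ c, z c = ∑ b : Fin k, if cfg b = c then (1 : ℝ) else 0 := by
    intro c
    rw [hz]
    simp only [Finsupp.finsetSum_apply, Finsupp.single_apply]
  have hconfig : ∀ b, IsConfig a (cfg b) := by
    intro b
    constructor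
    · intro s hs
      by_contra hsa
      rw [Finsupp.mem_support_iff] at hs
      apply hs
      rw [hcfg_apply]
      apply Finset.sum_eq_zero
      intro i _
      rw [if_neg]
      intro hi
      exact hsa (hi ▸ List.get_mem a i)
    · have h1 : (cfg b).sum (fun s m => s * (m : ℚ))
          = ∑ i ∈ Finset.univ.filter (fun i => f i = b), a.get i * ((1 : ℕ) : ℚ) :=
        largeFrac_sum_singles (M := ℕ) (N := ℚ) _ (fun i => a.get i) (fun _ => 1)
          (fun (s : ℚ) (m : ℕ) => s * (m : ℚ)) (fun c => by simp)
          (fun c w₁ w₂ => by push_cast; ring)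
      rw [h1]
      have h2 : ∑ i ∈ Finset.univ.filter (fun i => f i = b), a.get i * ((1 : ℕ) : ℚ)
          = ∑ i : Fin a.length, if f i = b then a.get i else 0 := by
        rw [Finset.sum_filter]
        apply Finset.sum_congr rfl
        intro i _
        split_ifs <;> simp
      rw [h2]
      exact hf b
  refine ⟨z, ⟨?_, ?_, ?_⟩, ?_⟩
  · intro c
    rw [hz_apply]
    apply Finset.sum_nonneg
    intro b _
    split_ifs <;> norm_num
  · intro c hc
    have hex : ∃ b, cfg b = c := by
      by_contra hne
      push Not at hne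
      rw [Finsupp.mem_support_iff] at hc
      apply hc
      rw [hz_apply]
      apply Finset.sum_eq_zero
      intro b _
      rw [if_neg (hne b)]
    obtain ⟨b, rfl⟩ := hex
    exact hconfig b
  · intro s _
    have h1 : z.sum (fun c w => (c s : ℝ) * w) = ∑ b : Fin k, ((cfg b s : ℕ) : ℝ) * 1 :=
      largeFrac_sum_singles (M := ℝ) (N := ℝ) _ cfg (fun _ => (1 : ℝ))
        (fun (c : ℚ →₀ ℕ) (w : ℝ) => (c s : ℝ) * w) (fun c => by simp) (fun c w₁ w₂ => by ring)
    have h2 : ∑ b : Fin k, cfg b s = a.count s := by
      rw [← largeFrac_count s a]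
      simp only [hcfg_apply]
      exact Finset.sum_fiberwise Finset.univ f (fun i => if a.get i = s then 1 else 0)
    rw [h1, ← h2]
    push_cast
    simp
  · have h1 : z.sum (fun _ w => w) = ∑ b : Fin k, (1 : ℝ) :=
      largeFrac_sum_singles (M := ℝ) (N := ℝ) _ cfg (fun _ => (1 : ℝ))
        (fun (_ : ℚ →₀ ℕ) (w : ℝ) => w) (fun c => rfl) (fun c w₁ w₂ => rfl)
    rw [h1]
    simp

end Vale.Agent.Lib.P302
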