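import Vale.Agent.Lib.P302.LargeDefs

/-!
# P302: the instance with three items of size 2/5
-/

namespace Vale.Agent.Lib.P302

private theorem LargeSharp_mem {s : ℚ} (hs : s ∈ ([2 / 5, 2 / 5, 2 / 5] : List ℚ)) :
    s = 2 / 5 := by
  simp only [List.mem_cons, List.not_mem_nil, or_false, or_self] at hs
  exact hs

private theorem LargeSharp_id_packing (a : List ℚ) (h : ∀ s ∈ a, s ≤ 1) :
    IsPacking a a.length (fun i => i) := by
  intro b
  show (∑ i : Fin a.length, if i = b then a.get i else 0) ≤ 1
  rw [Finset.sum_eq_single b]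
  · rw [if_pos rfl]
    exact h _ (List.get_mem a b)
  · intro i _ hib
    rw [if_neg hib]
  · intro hb
    exact absurd (Finset.mem_univ b) hb

/-- Three items of size `2/5` do not fit into one bin. -/
theorem sharp_opt : 2 ≤ opt [2 / 5, 2 / 5, 2 / 5] := by
  unfold opt
  apply le_csInf
  · refine ⟨([2 / 5, 2 / 5, 2 / 5] : List ℚ).length, fun i => i, ?_⟩
    apply LargeSharp_id_packing
    intro s hs
    rw [LargeSharp_mem hs]
    norm_num
  · rintro k ⟨f, hf⟩
    by_contra hk
    have hk' : k = 0 ∨ k = 1 := by omega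
    rcases hk' with rfl | rfl
    · exact (f ⟨0, by simp⟩).elim0
    · have h := hf 0
      have hall : ∀ i, f i = 0 := fun i => Subsingleton.elim _ _
      simp only [hall, if_true] at h
      have h3 : (∑ i : Fin 3, ([2 / 5, 2 / 5, 2 / 5] : List ℚ).get i) ≤ 1 := h
      rw [Fin.sum_univ_three] at h3
      have h4 : (2 / 5 : ℚ) + 2 / 5 + 2 / 5 ≤ 1 := h3
      norm_num at h4

/-- The configuration with two items of size `2/5`, taken `3/2` times, is feasible. -/
theorem sharp_lp : lp [2 / 5, 2 / 5, 2 / 5] ≤ 3 / 2 := by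
  unfold lp
  apply csInf_le
  · refine ⟨0, ?_⟩
    rintro v ⟨z, hz, hv⟩
    rw [hv]
    exact Finsupp.sum_nonneg (fun c _ => hz.1 c)
  · refine ⟨Finsupp.single (Finsupp.single (2 / 5 : ℚ) 2) (3 / 2 : ℝ), ⟨?_, ?_, ?_⟩, ?_⟩
    · intro c
      rw [Finsupp.single_apply]
      split_ifs <;> norm_num
    · intro c hc
      have hc' := Finsupp.support_single_subset hc
      rw [Finset.mem_singleton] at hc'
      rw [hc']
      refine ⟨?_, ?_⟩
      · intro s hs
        have hs' := Finsupp.support_single_subset hs
        rw [Finset.mem_singleton] at hs'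
        rw [hs']
        simp
      · rw [Finsupp.sum_single_index (by simp)]
        norm_num
    · intro s hs
      rw [LargeSharp_mem hs, Finsupp.sum_single_index (by simp), Finsupp.single_eq_same]
      have hcount : ([2 / 5, 2 / 5, 2 / 5] : List ℚ).count (2 / 5) = 3 := by simp
      rw [hcount]
      norm_num
    · rw [Finsupp.sum_single_index rfl]

end Vale.Agent.Lib.P302
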