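import Vale.Agent.Lib.P302.LargeCore
import Vale.Agent.Lib.P302.LargeDual
import Vale.Agent.Lib.P302.LargeFrac
import Vale.Agent.Lib.P302.LargeSharp

/-!
# P302: instances with all sizes above one third have the integer round-up property
-/

namespace Vale.Agent.Lib.P302

/-- The values of feasible fractional solutions are nonnegative. -/
theorem lp_set_bddBelow (a : List ℚ) :
    BddBelow {v : ℝ | ∃ z : (ℚ →₀ ℕ) →₀ ℝ, IsFractional a z ∧ v = z.sum fun _ w => w} := by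
  refine ⟨0, ?_⟩
  rintro v ⟨z, hz, rfl⟩
  exact Finsupp.sum_nonneg fun c _ => hz.1 c

/-- `lp a ≤ k` for every packing into `k` bins. -/
theorem lp_le_of_packing (a : List ℚ) (k : ℕ) (f : Fin a.length → Fin k)
    (hf : IsPacking a k f) : lp a ≤ (k : ℝ) := by
  obtain ⟨z, hz, hk⟩ := exists_fractional_of_packing a k f hf
  exact csInf_le (lp_set_bddBelow a) ⟨z, hz, hk.symm⟩

/-- `lp a ≤ opt a` as soon as some packing exists. -/
theorem lp_le_opt (a : List ℚ) (k : ℕ) (f : Fin a.length → Fin k) (hf : IsPacking a k f) :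
    lp a ≤ (opt a : ℝ) := by
  have hne : {k : ℕ | ∃ f : Fin a.length → Fin k, IsPacking a k f}.Nonempty := ⟨k, f, hf⟩
  obtain ⟨f', hf'⟩ := Nat.sInf_mem hne
  exact lp_le_of_packing a _ f' hf'

/-- Main theorem: all sizes in `(1/3, 1]` imply `opt ≤ lp + 1/2` and `opt = ⌈lp⌉`. -/
theorem large_main (a : List ℚ) (ha : ∀ s ∈ a, 1 / 3 < s ∧ s ≤ 1) :
    (opt a : ℝ) ≤ lp a + 1 / 2 ∧ (opt a : ℤ) = ⌈lp a⌉ := by
  have hw : ∀ i : Fin a.length, 0 < a.get i ∧ a.get i ≤ 1 := by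
    intro i
    have h := ha (a.get i) (List.get_mem a i)
    exact ⟨by linarith [h.1], h.2⟩
  obtain ⟨K, f, θ, hpack, hcert⟩ := core_fin a.length a.get hw
  have hf : IsPacking a K f := hpack
  have hoptK : opt a ≤ K := Nat.sInf_le ⟨f, hf⟩
  have hlpopt : lp a ≤ (opt a : ℝ) := lp_le_opt a K f hf
  obtain ⟨z0, hz0, _⟩ := exists_fractional_of_packing a K f hf
  have hKlp : (K : ℝ) - 1 / 2 ≤ lp a := by
    refine le_csInf ⟨_, z0, hz0, rfl⟩ ?_
    rintro v ⟨z, hz, rfl⟩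
    have h1 := dual_bound a ha θ z hz
    have h2 : ((K : ℚ) - 1 / 2 : ℚ) ≤ ∑ i : Fin a.length, yth θ (a.get i) := hcert
    have h3 : (((K : ℚ) - 1 / 2 : ℚ) : ℝ) ≤ ((∑ i : Fin a.length, yth θ (a.get i) : ℚ) : ℝ) := by
      exact_mod_cast h2
    have h4 : (((K : ℚ) - 1 / 2 : ℚ) : ℝ) = (K : ℝ) - 1 / 2 := by push_cast; ring
    linarith
  have hoptK' : (opt a : ℝ) ≤ (K : ℝ) := by exact_mod_cast hoptK
  have hmain : (opt a : ℝ) ≤ lp a + 1 / 2 := by linarith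
  refine ⟨hmain, le_antisymm ?_ ?_⟩
  · have h5 : ((opt a : ℤ) : ℝ) - 1 < lp a := by
      have : ((opt a : ℤ) : ℝ) = (opt a : ℝ) := by push_cast; rfl
      rw [this]; linarith
    have h6 : ((opt a : ℤ) : ℝ) - 1 < (⌈lp a⌉ : ℝ) := lt_of_lt_of_le h5 (Int.le_ceil _)
    have h7 : (opt a : ℤ) - 1 < ⌈lp a⌉ := by exact_mod_cast h6
    omega
  · exact Int.ceil_le.mpr (by exact_mod_cast hlpopt)

/-- Sharpness: three items of size `2/5` have `opt = lp + 1/2`. -/
theorem large_sharp :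
    ∃ a : List ℚ, (∀ s ∈ a, 1 / 3 < s ∧ s ≤ 1) ∧ (opt a : ℝ) = lp a + 1 / 2 := by
  refine ⟨[2 / 5, 2 / 5, 2 / 5], ?_, ?_⟩
  · intro s hs
    simp only [List.mem_cons, List.not_mem_nil, or_false, or_self] at hs
    subst hs
    constructor <;> norm_num
  · have ha : ∀ s ∈ ([2 / 5, 2 / 5, 2 / 5] : List ℚ), 1 / 3 < s ∧ s ≤ 1 := by
      intro s hs
      simp only [List.mem_cons, List.not_mem_nil, or_false, or_self] at hs
      subst hs
      constructor <;> norm_num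
    have h1 := (large_main _ ha).1
    have h2 : (2 : ℝ) ≤ (opt ([2 / 5, 2 / 5, 2 / 5] : List ℚ) : ℝ) := by
      exact_mod_cast sharp_opt
    have h3 := sharp_lp
    -- opt is a natural number with 2 ≤ opt ≤ lp + 1/2 ≤ 2
    have h4 : (opt ([2 / 5, 2 / 5, 2 / 5] : List ℚ) : ℝ) ≤ 2 := by linarith
    linarith

end Vale.Agent.Lib.P302
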