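import Vale.Agent.Lib.P302.Defs
import Vale.Agent.Lib.P302.Checker

/-!
# P302: from the integer checker to a lower bound for `opt`
-/

namespace Vale.Agent.Lib.P302

/-- The rational instance with integer sizes `items` and bin capacity `G`. -/
def scaled (G : ℕ) (items : List ℕ) : List ℚ := items.map fun (e : ℕ) => (e : ℚ) / (G : ℚ)

theorem CanPack.mono {G k : ℕ} {M : Multiset ℕ} (h : CanPack G k M) (K : ℕ) (hK : k ≤ K) :
    CanPack G K M := by
  obtain ⟨bins, hlen, hsum, hle⟩ := h
  refine ⟨bins ++ List.replicate (K - k) 0, ?_, ?_, ?_⟩
  · simp [hlen]; omega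
  · rw [List.sum_append, hsum]
    simp
  · intro B hB
    rw [List.mem_append] at hB
    rcases hB with hB | hB
    · exact hle B hB
    · rw [List.mem_replicate] at hB
      rw [hB.2]; simp

theorem canPack_of_assign (G : ℕ) (L : List ℕ) (k : ℕ) (f : Fin L.length → Fin k)
    (hf : ∀ b : Fin k, (∑ i : Fin L.length, if f i = b then L.get i else 0) ≤ G) :
    CanPack G k (L : Multiset ℕ) := by
  classical
  refine ⟨List.ofFn fun b : Fin k =>
    ∑ i ∈ Finset.univ.filter (fun i => f i = b), ({L.get i} : Multiset ℕ), ?_, ?_, ?_⟩
  · simp
  · rw [List.sum_ofFn]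
    rw [Finset.sum_fiberwise (s := Finset.univ) (g := f) (f := fun i => ({L.get i} : Multiset ℕ))]
    have h1 : (∑ i : Fin L.length, ({L.get i} : Multiset ℕ))
        = Multiset.map (fun i => L.get i) (Finset.univ : Finset (Fin L.length)).val := by
      rw [Finset.sum_eq_multiset_sum]
      have h0 : Multiset.map (fun i : Fin L.length => ({L.get i} : Multiset ℕ)) Finset.univ.val
          = Multiset.map (fun a => ({a} : Multiset ℕ))
              (Multiset.map (fun i => L.get i) Finset.univ.val) := by
        rw [Multiset.map_map]; rfl
      rw [h0, Multiset.sum_map_singleton]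
    rw [h1, Fin.univ_val_map]
    simp
  · intro B hB
    rw [List.mem_ofFn] at hB
    obtain ⟨b, rfl⟩ := hB
    have := hf b
    rw [← Finset.sum_filter] at this
    have h2 : (∑ i ∈ Finset.univ.filter (fun i => f i = b), ({L.get i} : Multiset ℕ)).sum
        = ∑ i ∈ Finset.univ.filter (fun i => f i = b), L.get i := by
      rw [← Multiset.coe_sumAddMonoidHom, map_sum]
      simp
    rw [h2]
    exact this

theorem scaled_length (G : ℕ) (items : List ℕ) : (scaled G items).length = items.length := by
  simp [scaled]

/-- If the integer instance does not fit into `K` bins, every packing of the scaled instance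
needs more than `K` bins. -/
theorem opt_ge_of_not_canPack (G : ℕ) (hG : 0 < G) (items : List ℕ) (hle : ∀ e ∈ items, e ≤ G)
    (K : ℕ) (hno : ¬ CanPack G K (items : Multiset ℕ)) : K + 1 ≤ opt (scaled G items) := by
  unfold opt
  apply le_csInf
  · -- one bin per item
    refine ⟨(scaled G items).length, fun i => i, ?_⟩
    intro b
    rw [Finset.sum_ite_eq' Finset.univ b]
    simp only [Finset.mem_univ, if_true]
    have hmem : (scaled G items).get b ∈ scaled G items := List.get_mem _ _
    have hmem2 := hmem
    unfold scaled at hmem2
    rw [List.mem_map] at hmem2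
    obtain ⟨e, he, heq⟩ := hmem2
    have heq2 : (scaled G items).get b = (e : ℚ) / G := heq.symm
    rw [heq2]
    have := hle e he
    rw [div_le_one (by exact_mod_cast hG)]
    exact_mod_cast this
  · intro k hk
    obtain ⟨f, hf⟩ := hk
    by_contra hlt
    have hkK : k ≤ K := by omega
    apply hno
    have hlen := scaled_length G items
    -- transport the assignment to the integer list
    have hcan : CanPack G k (items : Multiset ℕ) := by
      apply canPack_of_assign G items k (fun i => f (Fin.cast hlen.symm i))
      intro b
      have hb := hf b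
      have hGq : (0 : ℚ) < G := by exact_mod_cast hG
      have key : (∑ i : Fin (scaled G items).length, if f i = b then (scaled G items).get i else 0)
          = ((∑ i : Fin items.length, if f (Fin.cast hlen.symm i) = b then items.get i else 0 : ℕ) : ℚ) / G := by
        rw [Nat.cast_sum, Finset.sum_div]
        rw [← Equiv.sum_comp (finCongr hlen.symm)]
        apply Finset.sum_congr rfl
        intro i _
        simp only [finCongr_apply]
        split_ifs with h
        · simp [scaled, Fin.cast]
        · simp
      rw [key, div_le_one hGq] at hb
      exact_mod_cast hb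
    exact hcan.mono K hkK

/-- If the checker refuses `K` bins, every packing of the scaled instance needs more than `K`
bins. -/
theorem opt_ge_of_noPack (G : ℕ) (hG : 0 < G) (items : List ℕ) (hle : ∀ e ∈ items, e ≤ G)
    (K : ℕ) (st : List (ℕ × ℕ)) (hst : stMs st = (items : Multiset ℕ))
    (hno : noPack G K st = true) : K + 1 ≤ opt (scaled G items) := by
  apply opt_ge_of_not_canPack G hG items hle K
  rw [← hst]
  exact noPack_sound G K st hno

end Vale.Agent.Lib.P302
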