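import Vale.Agent.Lib.P302.Defs
import Vale.Agent.Lib.P302.OptBound

/-!
# P302: an upper bound for `lp` from an explicit list of weighted configurations
-/

namespace Vale.Agent.Lib.P302

open Finsupp in
theorem sum_list_single {α M N : Type*} [AddCommMonoid M] [AddCommMonoid N]
    (l : List (α × M)) (h : α → M → N) (h0 : ∀ a, h a 0 = 0)
    (hadd : ∀ a b1 b2, h a (b1 + b2) = h a b1 + h a b2) :
    ((l.map fun p => Finsupp.single p.1 p.2).sum).sum h = (l.map fun p => h p.1 p.2).sum := by
  classical
  induction l with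
  | nil => simp
  | cons p l ih =>
    rw [List.map_cons, List.sum_cons, List.map_cons, List.sum_cons]
    rw [Finsupp.sum_add_index' h0 hadd, ih, Finsupp.sum_single_index (h0 p.1)]

theorem support_list_single {α M : Type*} [AddCommMonoid M]
    (l : List (α × M)) (a : α) (ha : a ∈ ((l.map fun p => Finsupp.single p.1 p.2).sum).support) :
    ∃ p ∈ l, p.1 = a := by
  classical
  induction l with
  | nil => simp at ha
  | cons p l ih =>
    rw [List.map_cons, List.sum_cons] at ha
    have := Finsupp.support_add ha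
    rw [Finset.mem_union] at this
    rcases this with h | h
    · have h2 := Finsupp.support_single_subset h
      rw [Finset.mem_singleton] at h2
      exact ⟨p, by simp, h2.symm⟩
    · obtain ⟨q, hq, hqa⟩ := ih h
      exact ⟨q, by simp [hq], hqa⟩

/-- The configuration given by a list of integer sizes (with repetitions). -/
noncomputable def cfgF (G : ℕ) (l : List ℕ) : ℚ →₀ ℕ :=
  ((l.map fun (e : ℕ) => (((e : ℚ) / (G : ℚ), 1) : ℚ × ℕ)).map
    fun p => Finsupp.single p.1 p.2).sum

/-- The fractional solution given by a list of configurations with weights `p / D`. -/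
noncomputable def zF (G D : ℕ) (cfgs : List (List ℕ × ℕ)) : (ℚ →₀ ℕ) →₀ ℝ :=
  ((cfgs.map fun (c : List ℕ × ℕ) =>
      ((cfgF G c.1, (c.2 : ℝ) / (D : ℝ)) : (ℚ →₀ ℕ) × ℝ)).map
    fun p => Finsupp.single p.1 p.2).sum

theorem div_inj (G : ℕ) (hG : 0 < G) (e e' : ℕ) (h : (e : ℚ) / (G : ℚ) = (e' : ℚ) / (G : ℚ)) :
    e = e' := by
  have hGq : (G : ℚ) ≠ 0 := by exact_mod_cast hG.ne'
  have := (div_left_inj' hGq).mp h
  exact_mod_cast this

theorem cfgF_apply (G : ℕ) (hG : 0 < G) (l : List ℕ) (e : ℕ) :
    cfgF G l ((e : ℚ) / (G : ℚ)) = l.count e := by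
  classical
  induction l with
  | nil => simp [cfgF]
  | cons x l ih =>
    unfold cfgF at ih ⊢
    rw [List.map_cons, List.map_cons, List.sum_cons, Finsupp.add_apply, ih,
      Finsupp.single_apply, List.count_cons]
    by_cases hx : x = e
    · subst hx; simp; ring
    · have : ¬ ((x : ℚ) / (G : ℚ) = (e : ℚ) / (G : ℚ)) := fun h => hx (div_inj G hG _ _ h)
      simp [this, hx]

theorem cfgF_sum (G : ℕ) (l : List ℕ) :
    ((cfgF G l).sum fun s m => s * (m : ℚ)) = (l.sum : ℚ) / (G : ℚ) := by
  unfold cfgF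
  rw [sum_list_single _ _ (by simp) (by intro a b1 b2; push_cast; ring)]
  rw [List.map_map]
  induction l with
  | nil => simp
  | cons x l ih =>
    rw [List.map_cons, List.sum_cons, ih]
    simp only [Function.comp, List.sum_cons]
    push_cast
    ring

theorem cfgF_isConfig (G : ℕ) (hG : 0 < G) (items : List ℕ) (l : List ℕ)
    (hmem : ∀ e ∈ l, e ∈ items) (hsum : l.sum ≤ G) : IsConfig (scaled G items) (cfgF G l) := by
  constructor
  · intro s hs
    unfold cfgF at hs
    obtain ⟨p, hp, hps⟩ := support_list_single _ s hs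
    rw [List.mem_map] at hp
    obtain ⟨e, he, rfl⟩ := hp
    unfold scaled
    rw [List.mem_map]
    exact ⟨e, hmem e he, hps⟩
  · rw [cfgF_sum]
    rw [div_le_one (by exact_mod_cast hG)]
    exact_mod_cast hsum

theorem zF_sum (G D : ℕ) (cfgs : List (List ℕ × ℕ)) (h : (ℚ →₀ ℕ) → ℝ → ℝ)
    (h0 : ∀ a, h a 0 = 0) (hadd : ∀ a b1 b2, h a (b1 + b2) = h a b1 + h a b2) :
    (zF G D cfgs).sum h = (cfgs.map fun c => h (cfgF G c.1) ((c.2 : ℝ) / (D : ℝ))).sum := by
  unfold zF
  rw [sum_list_single _ _ h0 hadd, List.map_map]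
  rfl

theorem zF_nonneg (G D : ℕ) (cfgs : List (List ℕ × ℕ)) (c : ℚ →₀ ℕ) : 0 ≤ zF G D cfgs c := by
  classical
  induction cfgs with
  | nil => simp [zF]
  | cons x l ih =>
    unfold zF at ih ⊢
    rw [List.map_cons, List.map_cons, List.sum_cons, Finsupp.add_apply, Finsupp.single_apply]
    have : (0 : ℝ) ≤ (x.2 : ℝ) / (D : ℝ) := by positivity
    split_ifs <;> linarith

/-- The list of weighted configurations is a feasible point of the configuration LP, so `lp`
is at most its total weight. -/
theorem lp_le_of_cover (G : ℕ) (hG : 0 < G) (items : List ℕ) (D : ℕ) (hD : 0 < D)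
    (cfgs : List (List ℕ × ℕ))
    (hc : ∀ c ∈ cfgs, (∀ e ∈ c.1, e ∈ items) ∧ c.1.sum ≤ G)
    (hcov : ∀ e ∈ items, D * items.count e ≤ (cfgs.map fun c => c.1.count e * c.2).sum) :
    IsFractional (scaled G items) (zF G D cfgs) ∧
      lp (scaled G items) ≤ ((cfgs.map fun c => c.2).sum : ℝ) / (D : ℝ) := by
  classical
  have hDr : (0 : ℝ) < D := by exact_mod_cast hD
  have hfrac : IsFractional (scaled G items) (zF G D cfgs) := by
    refine ⟨zF_nonneg G D cfgs, ?_, ?_⟩
    · intro c hcs
      unfold zF at hcs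
      obtain ⟨p, hp, hpc⟩ := support_list_single _ c hcs
      rw [List.mem_map] at hp
      obtain ⟨c', hc', rfl⟩ := hp
      rw [← hpc]
      exact cfgF_isConfig G hG items c'.1 (hc c' hc').1 (hc c' hc').2
    · intro s hs
      unfold scaled at hs
      rw [List.mem_map] at hs
      obtain ⟨e, he, rfl⟩ := hs
      have hcount : (scaled G items).count ((e : ℚ) / (G : ℚ)) = items.count e := by
        unfold scaled
        exact List.count_map_of_injective items (fun (e : ℕ) => (e : ℚ) / (G : ℚ))
          (fun a b h => div_inj G hG a b h) e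
      rw [hcount]
      rw [zF_sum G D cfgs _ (by intro a; ring) (by intro a b1 b2; ring)]
      have h1 : (cfgs.map fun c => ((cfgF G c.1) ((e : ℚ) / (G : ℚ)) : ℝ) * ((c.2 : ℝ) / (D : ℝ))).sum
          = (((cfgs.map fun c => c.1.count e * c.2).sum : ℕ) : ℝ) / (D : ℝ) := by
        clear hc hcov
        induction cfgs with
        | nil => simp
        | cons x l ih =>
          rw [List.map_cons, List.sum_cons, ih, List.map_cons, List.sum_cons, cfgF_apply G hG]
          push_cast
          ring
      rw [h1, le_div_iff₀ hDr]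
      have := hcov e he
      have h2 : ((D * items.count e : ℕ) : ℝ) ≤ (((cfgs.map fun c => c.1.count e * c.2).sum : ℕ) : ℝ) := by
        exact_mod_cast this
      rw [Nat.cast_mul] at h2
      linarith
  refine ⟨hfrac, ?_⟩
  have hval : ((zF G D cfgs).sum fun _ w => w) = ((cfgs.map fun c => c.2).sum : ℝ) / (D : ℝ) := by
    rw [zF_sum G D cfgs _ (by intro a; rfl) (by intro a b1 b2; rfl)]
    clear hc hcov hfrac
    induction cfgs with
    | nil => simp
    | cons x l ih =>
      rw [List.map_cons, List.sum_cons, ih, List.map_cons, List.sum_cons]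
      ring
  unfold lp
  apply csInf_le
  · refine ⟨0, ?_⟩
    rintro v ⟨z, hz, rfl⟩
    exact Finset.sum_nonneg (fun c _ => hz.1 c)
  · exact ⟨zF G D cfgs, hfrac, hval.symm⟩

end Vale.Agent.Lib.P302
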