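import Vale.Agent.Lib.P302.OptBound

/-!
# P302: a kernel certificate for instances in which every bin holds at most three items

If any four items exceed the capacity, a packing of `n` items into `k` bins has at least
`n - 2 * k` bins with exactly three items.  So `K + 1 ≤ opt` follows once there are no `t`
disjoint fitting triples, where `2 * K + t ≤ n`.  The absence of `t` disjoint fitting triples is
certified by a search on the `3 * t` smallest items.
-/

namespace Vale.Agent.Lib.P302

open Multiset in
/-- `HasTriples G t M`: there are `t` pairwise disjoint sub-multisets of `M`, each with three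
elements and total size at most `G`. -/
def HasTriples (G t : ℕ) (M : Multiset ℕ) : Prop :=
  ∃ T : List (Multiset ℕ), T.length = t ∧ (∀ B ∈ T, Multiset.card B = 3 ∧ B.sum ≤ G) ∧ T.sum ≤ M

theorem mem_list_sum {x : ℕ} : ∀ {T : List (Multiset ℕ)}, x ∈ T.sum → ∃ B ∈ T, x ∈ B
  | [], h => by simp at h
  | B :: T, h => by
    rw [List.sum_cons, Multiset.mem_add] at h
    rcases h with h | h
    · exact ⟨B, by simp, h⟩
    · obtain ⟨B', hB', hx⟩ := mem_list_sum h
      exact ⟨B', by simp [hB'], hx⟩

theorem list_sum_erase {T : List (Multiset ℕ)} {B : Multiset ℕ} (hB : B ∈ T) :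
    T.sum = B + (T.erase B).sum := by
  rw [(List.perm_cons_erase hB).sum_eq, List.sum_cons]

theorem card_list_sum (T : List (Multiset ℕ)) (h : ∀ B ∈ T, Multiset.card B = 3) :
    Multiset.card T.sum = 3 * T.length := by
  induction T with
  | nil => simp
  | cons B T ih =>
    rw [List.sum_cons, Multiset.card_add, h B (by simp), ih (fun B' hB' => h B' (by simp [hB']))]
    simp only [List.length_cons]
    omega

theorem sum_list_sum_le (G : ℕ) (T : List (Multiset ℕ)) (h : ∀ B ∈ T, B.sum ≤ G) :
    T.sum.sum ≤ T.length * G := by
  induction T with
  | nil => simp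
  | cons B T ih =>
    rw [List.sum_cons, Multiset.sum_add]
    have h1 := h B (by simp)
    have h2 := ih (fun B' hB' => h B' (by simp [hB']))
    simp only [List.length_cons]
    nlinarith

/-- Counting: if every bin has at most three items, the three-item bins are many. -/
theorem card_sum_le_filter (bins : List (Multiset ℕ)) (h3 : ∀ B ∈ bins, Multiset.card B ≤ 3) :
    Multiset.card bins.sum
      ≤ 2 * bins.length + (bins.filter fun B => Multiset.card B = 3).length := by
  induction bins with
  | nil => simp
  | cons B bins ih =>
    have h1 := h3 B (by simp)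
    have h2 := ih (fun B' hB' => h3 B' (by simp [hB']))
    rw [List.sum_cons, Multiset.card_add, List.filter_cons]
    by_cases hB : Multiset.card B = 3
    · simp only [hB, decide_true, if_true, List.length_cons]
      omega
    · simp only [hB, decide_false, List.length_cons]
      simp only [Bool.false_eq_true, if_false]
      omega

theorem HasTriples.of_canPack {G k : ℕ} {M : Multiset ℕ} (h : CanPack G k M)
    (h4 : ∀ B : Multiset ℕ, B ≤ M → 4 ≤ Multiset.card B → G < B.sum) (t : ℕ)
    (ht : 2 * k + t ≤ Multiset.card M) : HasTriples G t M := by
  obtain ⟨bins, hlen, hsum, hle⟩ := h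
  subst hsum
  have h3 : ∀ B ∈ bins, Multiset.card B ≤ 3 := by
    intro B hB
    by_contra hcon
    have hBle : B ≤ bins.sum := by
      rw [list_sum_erase hB]; exact Multiset.le_add_right _ _
    have := h4 B hBle (by omega)
    have := hle B hB
    omega
  have hcount := card_sum_le_filter bins h3
  set T := bins.filter fun B => Multiset.card B = 3 with hT
  have hTsub : T.Sublist bins := List.filter_sublist
  refine ⟨T.take t, ?_, ?_, ?_⟩
  · rw [List.length_take]; omega
  · intro B hB
    have hB1 : B ∈ T := List.mem_of_mem_take hB
    rw [hT, List.mem_filter] at hB1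
    exact ⟨by simpa using hB1.2, hle B hB1.1⟩
  · have hs : (T.take t).Sublist bins := (List.take_sublist t T).trans hTsub
    exact hs.sum_le_sum (fun a _ => Multiset.zero_le a)

/-- The largest item may be dropped if some item is unused. -/
theorem HasTriples.erase_max {G t : ℕ} {M : Multiset ℕ} (h : HasTriples G t M) (x : ℕ)
    (hmax : ∀ y ∈ M, y ≤ x) (hcard : 3 * t < Multiset.card M) : HasTriples G t (M.erase x) := by
  obtain ⟨T, hlen, hT, hsum⟩ := h
  by_cases hx : x ∈ T.sum
  · obtain ⟨B, hB, hxB⟩ := mem_list_sum hx
    have hTs := list_sum_erase hB
    set R := (T.erase B).sum with hR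
    have hcs : Multiset.card T.sum = 3 * t := by
      rw [card_list_sum T (fun B' hB' => (hT B' hB').1), hlen]
    have hpos : 0 < Multiset.card (M - T.sum) := by
      rw [Multiset.card_sub hsum]; omega
    obtain ⟨y, hy⟩ := Multiset.card_pos_iff_exists_mem.mp hpos
    have hyM : y ∈ M := Multiset.mem_of_le (Multiset.sub_le_self _ _) hy
    have hyx : y ≤ x := hmax y hyM
    have hycount : Multiset.count y T.sum + 1 ≤ Multiset.count y M := by
      have := Multiset.count_pos.mpr hy
      rw [Multiset.count_sub] at this
      omega
    refine ⟨(y ::ₘ B.erase x) :: T.erase B, ?_, ?_, ?_⟩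
    · rw [List.length_cons, List.length_erase_of_mem hB, hlen]
      have : 0 < T.length := List.length_pos_of_mem hB
      omega
    · intro B' hB'
      rw [List.mem_cons] at hB'
      rcases hB' with rfl | hB'
      · have hc := (hT B hB).1
        have hs := (hT B hB).2
        refine ⟨?_, ?_⟩
        · rw [Multiset.card_cons, Multiset.card_erase_of_mem hxB, hc]; rfl
        · rw [Multiset.sum_cons]
          have := Multiset.sum_erase hxB
          omega
      · exact hT B' (List.mem_of_mem_erase hB')
    · rw [List.sum_cons, ← hR, Multiset.le_iff_count]
      intro c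
      have h1 := Multiset.le_iff_count.mp hsum c
      rw [hTs, Multiset.count_add] at h1
      rw [hTs, Multiset.count_add] at hycount
      have hxc : 1 ≤ Multiset.count x B := Multiset.count_pos.mpr hxB
      rw [Multiset.count_add, Multiset.count_cons]
      by_cases hcx : c = x
      · subst hcx
        rw [Multiset.count_erase_self, Multiset.count_erase_self]
        by_cases hcy : c = y
        · subst hcy; simp only [if_true]; omega
        · simp only [hcy, if_false]; omega
      · rw [Multiset.count_erase_of_ne hcx, Multiset.count_erase_of_ne hcx]
        by_cases hcy : c = y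
        · subst hcy; simp only [if_true]; omega
        · simp only [hcy, if_false]; omega
  · refine ⟨T, hlen, hT, ?_⟩
    rw [Multiset.le_iff_count]
    intro c
    have h1 := Multiset.le_iff_count.mp hsum c
    by_cases hcx : c = x
    · subst hcx
      rw [Multiset.count_eq_zero_of_notMem hx]
      exact Nat.zero_le _
    · rw [Multiset.count_erase_of_ne hcx]
      exact h1

/-- The first element `y` of the list with `x + j + y ≤ G`. -/
def firstFit (G x j : ℕ) : List ℕ → Option ℕ
  | [] => none
  | y :: ys => if x + j + y ≤ G then some y else firstFit G x j ys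

/-- `anyJ f prev js`: does `f` hold for some entry of `js`?  An entry equal to its predecessor is
skipped. -/
def anyJ (f : ℕ → Bool) : Option ℕ → List ℕ → Bool
  | _, [] => false
  | prev, j :: js => (if prev = some j then false else f j) || anyJ f (some j) js

/-- `perfect G t L`: a search for a partition of the first `3 * t` entries of `L` (listed in
decreasing order) into `t` triples of total size at most `G`.  The first entry `x` is matched
with some `j` and then with the first (largest) remaining entry that fits. -/
def perfect (G : ℕ) : ℕ → List ℕ → Bool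
  | 0, _ => true
  | _ + 1, [] => false
  | t + 1, x :: rest =>
      if (t + 1) * G < (x :: rest).sum then false
      else anyJ (fun j => match firstFit G x j (rest.erase j) with
        | none => false
        | some k => perfect G t ((rest.erase j).erase k)) none rest

theorem firstFit_spec (G x j b : ℕ) : ∀ L : List ℕ, L.Pairwise (· ≥ ·) → b ∈ L → x + j + b ≤ G →
    ∃ k, firstFit G x j L = some k ∧ k ∈ L ∧ x + j + k ≤ G ∧ b ≤ k
  | [], _, hb, _ => by simp at hb
  | y :: ys, hs, hb, hfit => by
    unfold firstFit
    by_cases hy : x + j + y ≤ G
    · rw [if_pos hy]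
      refine ⟨y, rfl, by simp, hy, ?_⟩
      rw [List.mem_cons] at hb
      rcases hb with rfl | hb
      · exact le_rfl
      · exact (List.pairwise_cons.mp hs).1 b hb
    · rw [if_neg hy]
      rw [List.mem_cons] at hb
      rcases hb with rfl | hb
      · exact absurd hfit hy
      · obtain ⟨k, h1, h2, h3, h4⟩ := firstFit_spec G x j b ys (List.pairwise_cons.mp hs).2 hb hfit
        exact ⟨k, h1, by simp [h2], h3, h4⟩

theorem anyJ_of_mem (f : ℕ → Bool) (a : ℕ) (ha : f a = true) :
    ∀ (js : List ℕ) (prev : Option ℕ), a ∈ js → prev ≠ some a → anyJ f prev js = true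
  | [], _, h, _ => by simp at h
  | j :: js, prev, h, hp => by
    unfold anyJ
    by_cases hja : j = a
    · subst hja
      rw [if_neg hp, ha]; rfl
    · rw [List.mem_cons] at h
      rcases h with h | h
      · exact absurd h.symm hja
      · rw [anyJ_of_mem f a ha js (some j) h (by simpa using hja)]
        simp

/-- Completeness of the search. -/
theorem perfect_complete (G : ℕ) : ∀ (t : ℕ) (L : List ℕ), L.Pairwise (· ≥ ·) →
    (∃ T : List (Multiset ℕ), T.length = t ∧ (∀ B ∈ T, Multiset.card B = 3 ∧ B.sum ≤ G) ∧
      T.sum = (L : Multiset ℕ)) → perfect G t L = true := by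
  intro t
  induction t with
  | zero => intro L _ _; rfl
  | succ t ih =>
    intro L hsort hT
    obtain ⟨T, hlen, hT, hsum⟩ := hT
    rcases L with _ | ⟨x, rest⟩
    · exfalso
      rcases T with _ | ⟨B, T⟩
      · simp at hlen
      · have hc := (hT B (by simp)).1
        have : B ≤ (B :: T).sum := by rw [List.sum_cons]; exact Multiset.le_add_right _ _
        rw [hsum] at this
        have : B = 0 := by simpa using this
        rw [this] at hc; simp at hc
    · unfold perfect
      have hvol : ¬ ((t + 1) * G < (x :: rest).sum) := by
        have h1 := sum_list_sum_le G T (fun B hB => (hT B hB).2)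
        rw [hsum, hlen, Multiset.sum_coe] at h1
        omega
      rw [if_neg hvol]
      have hxT : x ∈ T.sum := by rw [hsum]; simp
      obtain ⟨B, hB, hxB⟩ := mem_list_sum hxT
      have hTs := list_sum_erase hB
      set R := (T.erase B).sum with hR
      have hcB := (hT B hB).1
      have hsB := (hT B hB).2
      have hc2 : Multiset.card (B.erase x) = 2 := by
        rw [Multiset.card_erase_of_mem hxB, hcB]; rfl
      obtain ⟨a, b, hab⟩ := Multiset.card_eq_two.mp hc2
      have hBx : B = x ::ₘ {a, b} := by
        rw [← hab, Multiset.cons_erase hxB]
      have hsum3 : x + a + b ≤ G := by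
        rw [hBx] at hsB
        simp only [Multiset.sum_cons, Multiset.insert_eq_cons, Multiset.sum_singleton] at hsB
        omega
      -- the rest of the list
      have hrest : (rest : Multiset ℕ) = {a, b} + R := by
        have h1 : T.sum = x ::ₘ (rest : Multiset ℕ) := by rw [hsum]; rfl
        rw [hTs, hBx, Multiset.cons_add] at h1
        exact ((Multiset.cons_inj_right x).mp h1).symm
      have ha : a ∈ rest := by
        have : a ∈ (rest : Multiset ℕ) := by rw [hrest]; simp
        simpa using this
      have hresta : ((rest.erase a : List ℕ) : Multiset ℕ) = {b} + R := by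
        rw [← Multiset.coe_erase, hrest]
        rw [Multiset.erase_add_left_pos _ (by simp)]
        congr 1
        rw [Multiset.insert_eq_cons, Multiset.erase_cons_head]
      have hb : b ∈ rest.erase a := by
        have : b ∈ ((rest.erase a : List ℕ) : Multiset ℕ) := by rw [hresta]; simp
        simpa using this
      have hsort1 : rest.Pairwise (· ≥ ·) := (List.pairwise_cons.mp hsort).2
      have hsort2 : (rest.erase a).Pairwise (· ≥ ·) := hsort1.sublist List.erase_sublist
      obtain ⟨k, hk1, hk2, hk3, hk4⟩ := firstFit_spec G x a b (rest.erase a) hsort2 hb hsum3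
      have hsort3 : ((rest.erase a).erase k).Pairwise (· ≥ ·) := hsort2.sublist List.erase_sublist
      -- a packing of what is left
      have key : ∃ T' : List (Multiset ℕ), T'.length = t ∧
          (∀ B ∈ T', Multiset.card B = 3 ∧ B.sum ≤ G) ∧
          T'.sum = (((rest.erase a).erase k : List ℕ) : Multiset ℕ) := by
        have hlen' : (T.erase B).length = t := by
          rw [List.length_erase_of_mem hB, hlen]; rfl
        have hT' : ∀ B' ∈ T.erase B, Multiset.card B' = 3 ∧ B'.sum ≤ G :=
          fun B' hB' => hT B' (List.mem_of_mem_erase hB')
        by_cases hkb : k = b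
        · subst hkb
          refine ⟨T.erase B, hlen', hT', ?_⟩
          rw [← Multiset.coe_erase, hresta, ← hR]
          rw [Multiset.erase_add_left_pos _ (by simp)]
          simp
        · have hkR : k ∈ R := by
            have : k ∈ ((rest.erase a : List ℕ) : Multiset ℕ) := by simpa using hk2
            rw [hresta, Multiset.mem_add] at this
            rcases this with h | h
            · simp at h; exact absurd h hkb
            · exact h
          obtain ⟨B2, hB2, hkB2⟩ := mem_list_sum hkR
          have hRs := list_sum_erase hB2
          rw [← hR] at hRs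
          refine ⟨(b ::ₘ B2.erase k) :: (T.erase B).erase B2, ?_, ?_, ?_⟩
          · rw [List.length_cons, List.length_erase_of_mem hB2, hlen']
            have : 0 < (T.erase B).length := List.length_pos_of_mem hB2
            omega
          · intro B' hB'
            rw [List.mem_cons] at hB'
            rcases hB' with rfl | hB'
            · have hc := (hT' B2 hB2).1
              have hs := (hT' B2 hB2).2
              refine ⟨?_, ?_⟩
              · rw [Multiset.card_cons, Multiset.card_erase_of_mem hkB2, hc]; rfl
              · rw [Multiset.sum_cons]
                have := Multiset.sum_erase hkB2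
                omega
            · exact hT' B' (List.mem_of_mem_erase hB')
          · rw [List.sum_cons, ← Multiset.coe_erase, hresta, hRs]
            have hkb' : k ∉ ({b} : Multiset ℕ) := by simpa using hkb
            rw [Multiset.erase_add_right_neg _ hkb', Multiset.erase_add_left_pos _ hkB2]
            rw [← Multiset.singleton_add, add_assoc]
      have hrec := ih ((rest.erase a).erase k) hsort3 key
      apply anyJ_of_mem _ a _ rest none ha (by simp)
      simp only [hk1, hrec]

theorem card_mul_le_four_sum (G : ℕ) (B : Multiset ℕ) (hq : ∀ e ∈ B, G ≤ 4 * e) :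
    Multiset.card B * G ≤ 4 * B.sum := by
  induction B using Multiset.induction_on with
  | empty => simp
  | cons e B ih =>
    have h1 := hq e (by simp)
    have h2 := ih (fun e' he' => hq e' (by simp [he']))
    rw [Multiset.card_cons, Multiset.sum_cons]
    nlinarith

/-- If every item is at least a quarter of the capacity and at most one item is exactly a
quarter, any four items exceed the capacity. -/
theorem four_gt (G : ℕ) (M : Multiset ℕ) (hq : ∀ e ∈ M, G ≤ 4 * e)
    (hq1 : Multiset.card (M.filter fun e => 4 * e = G) ≤ 1) :
    ∀ B : Multiset ℕ, B ≤ M → 4 ≤ Multiset.card B → G < B.sum := by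
  intro B hB hc
  have hqB : ∀ e ∈ B, G ≤ 4 * e := fun e he => hq e (Multiset.mem_of_le hB he)
  have hex : ∃ e ∈ B, ¬ (4 * e = G) := by
    by_contra hcon
    push Not at hcon
    have h1 : B.filter (fun e => 4 * e = G) = B := Multiset.filter_eq_self.mpr hcon
    have h2 : B.filter (fun e => 4 * e = G) ≤ M.filter (fun e => 4 * e = G) :=
      Multiset.filter_le_filter _ hB
    have h3 := Multiset.card_le_card h2
    rw [h1] at h3
    omega
  obtain ⟨e, he, hne⟩ := hex
  have hge := hqB e he
  have hgt : G < 4 * e := lt_of_le_of_ne hge (fun h => hne h.symm)
  have hB' : B = e ::ₘ B.erase e := (Multiset.cons_erase he).symm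
  have h5 := card_mul_le_four_sum G (B.erase e)
    (fun e' he' => hqB e' (Multiset.mem_of_le (Multiset.erase_le e B) he'))
  have hc' : Multiset.card B = Multiset.card (B.erase e) + 1 := by
    conv_lhs => rw [hB']
    rw [Multiset.card_cons]
  have hs' : B.sum = e + (B.erase e).sum := by
    conv_lhs => rw [hB']
    rw [Multiset.sum_cons]
  have h6 : Multiset.card B * G < 4 * B.sum := by
    rw [hc', hs']; nlinarith
  have h7 : 4 * G ≤ Multiset.card B * G := Nat.mul_le_mul_right G hc
  omega

/-- The certificate: the instance `big ++ small` (in decreasing order, any four items exceeding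
the capacity `G`) needs more than `K` bins if `2 * K + t ≤ n` and the `3 * t` smallest items
`small` admit no partition into fitting triples. -/
theorem opt_ge_of_noTriples (G : ℕ) (hG : 0 < G) (big small : List ℕ) (K t : ℕ)
    (hsort : (big ++ small).Pairwise (· ≥ ·))
    (hq : ∀ e ∈ big ++ small, G ≤ 4 * e)
    (hq1 : ((big ++ small).filter fun e => 4 * e = G).length ≤ 1)
    (hle : ∀ e ∈ big ++ small, e ≤ G)
    (hlen : small.length = 3 * t) (hcount : 2 * K + t ≤ (big ++ small).length)
    (hno : perfect G t small = false) : K + 1 ≤ opt (scaled G (big ++ small)) := by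
  apply opt_ge_of_not_canPack G hG _ hle K
  intro hcan
  have h4 := four_gt G ((big ++ small : List ℕ) : Multiset ℕ) (by simpa using hq)
    (by simpa using hq1)
  have hT := HasTriples.of_canPack hcan h4 t (by simpa using hcount)
  have hdrop : ∀ (big : List ℕ), (big ++ small).Pairwise (· ≥ ·) →
      HasTriples G t ((big ++ small : List ℕ) : Multiset ℕ) →
      HasTriples G t (small : Multiset ℕ) := by
    intro big
    induction big with
    | nil => intro _ h; simpa using h
    | cons x big ih =>
      intro hs h
      have hs' := List.pairwise_cons.mp hs
      have hmax : ∀ y ∈ ((x :: big ++ small : List ℕ) : Multiset ℕ), y ≤ x := by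
        intro y hy
        have hy' : y ∈ x :: (big ++ small) := by simpa using hy
        rw [List.mem_cons] at hy'
        rcases hy' with rfl | hy'
        · exact le_rfl
        · exact hs'.1 y hy'
      have hcard : 3 * t < Multiset.card ((x :: big ++ small : List ℕ) : Multiset ℕ) := by
        rw [Multiset.coe_card]
        simp only [List.cons_append, List.length_cons, List.length_append]
        omega
      have h2 := h.erase_max x hmax hcard
      apply ih hs'.2
      have : ((x :: big ++ small : List ℕ) : Multiset ℕ).erase x
          = ((big ++ small : List ℕ) : Multiset ℕ) := by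
        rw [Multiset.coe_erase]
        simp
      rw [← this]
      exact h2
  obtain ⟨T, hl, hT3, hsum⟩ := hdrop big hsort hT
  have heq : T.sum = (small : Multiset ℕ) := by
    apply Multiset.eq_of_le_of_card_le hsum
    rw [card_list_sum T (fun B hB => (hT3 B hB).1), hl, Multiset.coe_card, hlen]
  have hsmall : small.Pairwise (· ≥ ·) := hsort.sublist (List.sublist_append_right big small)
  have := perfect_complete G t small hsmall ⟨T, hl, hT3, heq⟩
  rw [hno] at this
  exact Bool.false_ne_true this

end Vale.Agent.Lib.P302
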